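import Vale.Agent.P307.R2.H804.Dom
import Vale.Agent.P307.R2.H514.AutSmall

/-!
Transfer of domination to all strong submodels of size `θ` of the saturated member of size `θ⁺`.
-/

set_option linter.unusedSectionVars false

universe u v w

open FirstOrder Cardinal Set

namespace Vale.Agent.P307.R2.H804

open Vale.Agent.P307 Vale.Agent.P307.H304 Vale.Agent.P307.R2.H287 Vale.Agent.P307.R2.H1
  Vale.Agent.P307.R2.H971 Vale.Agent.P307.R2.H806 Vale.Agent.P307.R2.H514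
  Language.Structure Language.Substructure

variable {L : Language.{u, u}} {K : AEC L} {ℓ Λ μ ν ρ τ θ : Cardinal.{u}}
  {κf α : Cardinal.{u} → Cardinal.{u}}

/-- Convergence and embeddings. -/
theorem Conv.map_iff (hK : K.IsLS ℓ) (hunb : ∀ ν, ν < κf ν ∧ K.CategoricalIn (κf ν))
    (hℓ : ℓ ≤ μ) {N M : Type u} [L.Structure N] [L.Structure M] (f : N ↪[L] M) (hf : K.Emb f)
    (hN : thr κf μ ≤ #N) {X ι : Type u} [LinearOrder X] (hι : #ι ≤ μ) {a : X → ι → N}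
    {r : ι → N} {B : Set N} :
    Conv L μ (fun x i => f (a x i)) (fun i => f (r i)) (f '' B) ↔ Conv L μ a r B := by
  have hμ : ℵ₀ ≤ μ := hK.1.trans hℓ
  have key : ∀ (ζ : Type u) (y : ζ → N) (s : ι → N), #ζ ≤ μ →
      EqS L μ (Sum.elim y s) (Sum.elim (fun z => f (y z)) fun i => f (s i)) := by
    intro ζ y s hζ
    refine (EqS.map_emb hK hunb hℓ f hf hN (mk_sum_le' hμ hζ hι) (Sum.elim y s)).subset ?_
    rintro _ ⟨z | i, rfl⟩
    · exact ⟨Sum.inl z, rfl⟩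
    · exact ⟨Sum.inr i, rfl⟩
  constructor
  · intro h ζ y hζ hy
    obtain ⟨x₀, hx₀⟩ := h ζ (fun z => f (y z)) hζ fun z => ⟨y z, hy z, rfl⟩
    exact ⟨x₀, fun x hx => ((key ζ y (a x) hζ).trans (hx₀ x hx)).trans (key ζ y r hζ).symm⟩
  · intro h ζ y hζ hy
    choose y' hy' hy'' using hy
    obtain ⟨x₀, hx₀⟩ := h ζ y' hζ hy'
    refine ⟨x₀, fun x hx => ?_⟩
    have h1 := ((key ζ y' (a x) hζ).symm.trans (hx₀ x hx)).trans (key ζ y' r hζ)
    have h2 : (fun z => f (y' z)) = y := funext hy''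
    rwa [h2] at h1

/-- Independence and embeddings. -/
theorem Ind.map_iff (hK : K.IsLS ℓ) (hunb : ∀ ν, ν < κf ν ∧ K.CategoricalIn (κf ν))
    (hℓ : ℓ ≤ μ) {N M : Type u} [L.Structure N] [L.Structure M] (f : N ↪[L] M) (hf : K.Emb f)
    (hN : thr κf μ ≤ #N) {ι : Type u} (hι : #ι ≤ μ) {r : ι → N} {D B : Set N} :
    Ind L κf μ (f '' D) (f '' B) (fun i => f (r i)) ↔ Ind L κf μ D B r := by
  constructor
  · rintro ⟨a, h1, h2⟩
    choose a' ha' ha'' using h1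
    refine ⟨a', ha', ?_⟩
    rw [← image_union] at h2
    refine (Conv.map_iff hK hunb hℓ f hf hN hι).1 ?_
    have h3 : (fun x i => f (a' x i)) = a := by
      funext x i
      exact ha'' x i
    rwa [h3]
  · rintro ⟨a, h1, h2⟩
    refine ⟨fun x i => f (a x i), fun x i => ⟨_, h1 x i, rfl⟩, ?_⟩
    rw [← image_union]
    exact (Conv.map_iff hK hunb hℓ f hf hN hι).2 h2

/-- The same with prescribed images. -/
theorem Ind.map_of (hK : K.IsLS ℓ) (hunb : ∀ ν, ν < κf ν ∧ K.CategoricalIn (κf ν))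
    (hℓ : ℓ ≤ μ) {N M : Type u} [L.Structure N] [L.Structure M] (f : N ↪[L] M) (hf : K.Emb f)
    (hN : thr κf μ ≤ #N) {ι : Type u} (hι : #ι ≤ μ) {r : ι → N} {D B : Set N} {r' : ι → M}
    {D' B' : Set M} (hD : f '' D = D') (hB : f '' B = B') (hr : ∀ i, f (r i) = r' i) :
    Ind L κf μ D' B' r' ↔ Ind L κf μ D B r := by
  rw [← Ind.map_iff hK hunb hℓ f hf hN hι, hD, hB, funext hr]

variable (L κf) in
/-- `N` is dominated by `v` over `P`, for tuples of length at most `ν`, at the level `μ`. -/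
def DomOver (μ ν : Cardinal.{u}) {C : Type u} [L.Structure C] {κ : Type u} (P N : Set C)
    (v : κ → C) : Prop :=
  ∀ (ζ ι : Type u), #ζ ≤ ν → #ι ≤ ν → ∀ (g : ζ → C) (r : ι → C), (∀ i, r i ∈ N) →
    Ind L κf μ P (range g) v → Ind L κf μ P (range g) r

/-- Small bases for small tuples over strong submodels of size `θ`. -/
theorem exists_small_base (hθ : BasePt K ℓ κf α θ) (hK : K.IsLS ℓ)
    (hunb : ∀ ν, ν < κf ν ∧ K.CategoricalIn (κf ν)) (hl : Lvl ℓ κf α ν μ ρ θ)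
    (hρθ : thr κf ρ < θ) {C : Type u} [L.Structure C] (P : L.Substructure C) (hP : K.le P)
    (hPc : #P = θ) {ι : Type u} (hι : #ι ≤ μ) (r : ι → C) :
    ∃ A₀ : L.Substructure C, K.le A₀ ∧ A₀ ≤ P ∧ #A₀ < θ ∧ thr κf ρ ≤ #A₀ ∧
      Refl L ρ (A₀ : Set C) ∧ Ind L κf μ (A₀ : Set C) P r := by
  have hμ := hl.hμ hK
  have hρ0 : ℵ₀ ≤ ρ := hμ.trans (hl.μρ hunb)
  have hℓρ : ℓ ≤ ρ := hl.hℓμ.trans (hl.μρ hunb)
  obtain ⟨a, ha, ha'⟩ := ind_empty hθ hK hunb hl P hP hPc hι r Subset.rfl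
    (refl_big hθ hK hunb hl P hP hPc)
  have hℓt : ℓ ≤ thr κf ρ := hℓρ.trans (le_thr hunb ρ)
  have hρt : ρ ≤ thr κf ρ := le_thr hunb ρ
  have h1 : #(range fun p : SuccTy (opB κf μ) × ι => a p.1 p.2) ≤ thr κf ρ := by
    refine mk_range_le.trans (mk_prod_le (hρ0.trans hρt) ?_ ((hι.trans (hl.μρ hunb)).trans hρt))
    exact ((mk_succTy _).trans_le hl.opB).trans hρt
  have haP : ∀ x i, a x i ∈ P := ha
  obtain ⟨S, hS, hSA, hSc⟩ := exists_sub_card hK hℓt (K.mem_of_le _ hP).1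
    (hρθ.le.trans hPc.ge) (range fun p : SuccTy (opB κf μ) × ι => (⟨a p.1 p.2, haP _ _⟩ : P))
    (mk_range_le.trans (mk_prod_le (hρ0.trans hρt) (((mk_succTy _).trans_le hl.opB).trans hρt)
      ((hι.trans (hl.μρ hunb)).trans hρt)))
  have hSle : K.le (S.map P.subtype.toHom) := K.le_trans P S hS hP
  have hSc' : #(S.map P.subtype.toHom : L.Substructure C) = thr κf ρ := by
    rw [← hSc]
    exact mk_image_eq (s := (S : Set P)) P.subtype.injective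
  refine ⟨S.map P.subtype.toHom, hSle, ?_, ?_, ?_, ?_, ?_⟩
  · rintro _ ⟨y, -, rfl⟩
    exact y.2
  · rw [hSc']
    exact hρθ
  · rw [hSc']
  · exact refl_of_le hK hunb hℓρ hSle hSc'.ge
  · refine ⟨a, fun x i => ⟨⟨a x i, haP x i⟩, hSA ⟨(x, i), rfl⟩, rfl⟩, ha'.mono ?_⟩
    refine union_subset ?_ ?_
    · rintro _ ⟨y, -, rfl⟩
      exact Or.inl y.2
    · exact fun x hx => Or.inl hx

theorem le_map_emb {N M : Type u} [L.Structure N] [L.Structure M] {f : N ↪[L] M}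
    (hf : K.Emb f) (S : L.Substructure N) (hS : K.le S) : K.le (S.map f.toHom) := by
  have h1 : K.Emb (f.comp S.subtype) := AEC.Emb.comp hf (AEC.emb_subtype.2 hS)
  unfold AEC.Emb at h1
  convert h1 using 1
  ext x
  constructor
  · rintro ⟨y, hy, rfl⟩
    exact ⟨⟨y, hy⟩, rfl⟩
  · rintro ⟨y, rfl⟩
    exact ⟨y.1, y.2, rfl⟩

/-- The saturated member of size `θ⁺` embeds in larger saturated members. -/
theorem exists_embed_sat (hθ : BasePt K ℓ κf α θ) (hK : K.IsLS ℓ) {C C' : Type u}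
    [L.Structure C] [L.Structure C'] (hC : K.mem C) (hCc : #C = Order.succ θ) (hC' : K.mem C')
    (hs' : Sat K θ C') (hθC' : θ ≤ #C') : ∃ f : C ↪[L] C', K.Emb f := by
  obtain ⟨A, hA, -, hAc⟩ := exists_sub_card hK hθ.pt.lt.le hC ((Order.le_succ θ).trans hCc.ge) ∅
    (by simp)
  obtain ⟨A', hA', -, hAc'⟩ := exists_sub_card hK hθ.pt.lt.le hC' hθC' ∅ (by simp)
  obtain ⟨e⟩ := hθ.pt.cat.2 A A' (K.mem_of_le _ hA).1 (K.mem_of_le _ hA').1 hAc hAc'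
  obtain ⟨f, hf, -⟩ := hs'.exists_emb hK hθ.pt.lt.le hCc A.subtype
    (A'.subtype.comp e.toEmbedding) (AEC.emb_subtype.2 hA)
    (AEC.Emb.comp (AEC.emb_subtype.2 hA') (AEC.Emb.of_equiv e (K.mem_of_le _ hA).1)) hAc
  exact ⟨f, hf⟩

/-- **Domination at every point.** -/
theorem exists_dom_at (hθ : BasePt K ℓ κf α θ) (hΛ : BasePt K ℓ κf α Λ) (hθΛ : θ < Λ)
    (hst : Stab K ℓ α (Vale.Agent.P307.R2.H287.thr κf)) (hK : K.IsLS ℓ)
    (hunb : ∀ ν, ν < κf ν ∧ K.CategoricalIn (κf ν)) (hl : Lvl ℓ κf α ν μ ρ θ)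
    (hρθ : thr κf ρ < θ) {C : Type u} [L.Structure C] (hCm : K.mem C)
    (hCc : #C = Order.succ θ) (hs : Sat K θ C) (P : L.Substructure C) (hP : K.le P)
    (hPc : #P = θ) {κ : Type u} [Finite κ] (v : κ → C) :
    ∃ N : L.Substructure C, K.le N ∧ #N = θ ∧ P ≤ N ∧ (∀ k, v k ∈ N) ∧
      DomOver L κf μ ν (P : Set C) N v := by
  classical
  have hμ := hl.hμ hK
  have hν : ℵ₀ ≤ ν := hK.1.trans hl.hℓ
  have hℓθ : ℓ ≤ θ := hθ.pt.lt.le
  have hθ0 : ℵ₀ ≤ θ := hK.1.trans hℓθ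
  have hΛ0 : ℵ₀ ≤ Λ := hθ0.trans hθΛ.le
  have hκν : #κ ≤ ν := (lt_aleph0_of_finite κ).le.trans hν
  have hκμ : #κ ≤ μ := hκν.trans hl.νμ
  have hμρ := hl.μρ hunb
  have hμθ : μ < θ := hl.μΛ hunb
  have hρ0 : ℵ₀ ≤ ρ := hμ.trans hμρ
  have hℓρ : ℓ ≤ ρ := hl.hℓμ.trans hμρ
  -- the levels
  have hτ : limB κf μ < θ := hθ.pt.lim μ hμθ
  have hlΛ : Lvl ℓ κf α ν μ ρ Λ := ⟨hl.hℓ, hl.tB, hl.νμ, hl.opB, hl.limB, hl.lt.trans hθΛ,
    hl.thr.trans hθΛ.le, hl.thr'.trans hθΛ.le, hl.thr''.trans hθΛ.le⟩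
  -- the large saturated member
  obtain ⟨C', _, hCm', hCc', hs'⟩ := hΛ.exists_saturated hK hunb
  have hthrθ : thr κf θ ≤ #C' := by
    rw [hCc']
    exact (hΛ.pt.thr θ hθΛ).le.trans (Order.le_succ Λ)
  have hsθ' : Sat K θ C' := hθ.sat hK hunb hthrθ
  have hθC' : θ ≤ #C' := by
    rw [hCc']
    exact hθΛ.le.trans (Order.le_succ Λ)
  obtain ⟨f, hf⟩ := exists_embed_sat hθ hK hCm hCc hCm' hsθ' hθC'
  have hthrC : thr κf μ ≤ #C := by
    rw [hCc]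
    exact (hθ.pt.thr μ hμθ).le.trans (Order.le_succ θ)
  -- the small base
  obtain ⟨A₀, hA₀, hA₀P, hA₀c, hA₀t, hA₀r, hA₀v⟩ := exists_small_base hθ hK hunb hl hρθ P hP hPc
    hκμ v
  have hPf := le_map_emb hf P hP
  have hA₀f := le_map_emb hf A₀ hA₀
  have hPfc : #(P.map f.toHom : L.Substructure C') = θ := by
    rw [← hPc]
    exact mk_image_eq (s := (P : Set C)) f.injective
  have hA₀fc : #(A₀.map f.toHom : L.Substructure C') = #A₀ :=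
    mk_image_eq (s := (A₀ : Set C)) f.injective
  have hA₀fr : Refl L ρ ((A₀.map f.toHom : L.Substructure C') : Set C') :=
    refl_of_le hK hunb hℓρ hA₀f (hA₀t.trans hA₀fc.ge)
  have hA₀Pf : ((A₀.map f.toHom : L.Substructure C') : Set C') ⊆ P.map f.toHom := by
    rintro _ ⟨x, hx, rfl⟩
    exact ⟨x, hA₀P hx, rfl⟩
  -- a submodel of size `Λ`
  obtain ⟨M₀, hM₀, hM₀P, hM₀c⟩ := exists_sub_card hK hΛ.pt.lt.le hCm'
    ((Order.le_succ Λ).trans hCc'.ge) ((P.map f.toHom : L.Substructure C') : Set C')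
    (hPfc.le.trans hθΛ.le)
  obtain ⟨v₁, hv₁, hv₁'⟩ := exists_free hΛ hK hunb hlΛ hs' M₀ hM₀ hM₀c hκμ (fun k => f (v k))
    (hA₀Pf.trans hM₀P) hA₀fr
  obtain ⟨D, N, hD, hN, hDc, hNc, hPD, hDN, hv₁N, hv₁D, hdom⟩ := exists_dom hΛ hK hunb hlΛ
    (τ := limB κf μ) (ν' := limB κf μ) le_rfl le_rfl (Order.succ_le_of_lt hτ)
    (Order.succ_le_of_lt hθΛ) (((hθ.pt.thr _ hτ).le.trans hθΛ.le).trans (Order.le_succ Λ))
    hρθ.le hCm' hCc' hs' (P.map f.toHom) hPfc M₀ hM₀ hM₀c hM₀P v₁ hA₀Pf hA₀fr hv₁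
  -- the isomorphism of `D` and `P`
  have hfA₀D : ∀ a : A₀, f a ∈ D := fun a => hPD (hA₀Pf ⟨a, a.2, rfl⟩)
  have hℓA : ℓ ≤ #A₀ := (hℓρ.trans (le_thr hunb ρ)).trans hA₀t
  have hσα : #A₀ ≤ α #A₀ := (hst _ hℓA).1
  have hαθ : α #A₀ < θ := hθ.al _ hA₀c
  have hℓα : ℓ ≤ α #A₀ := hℓA.trans hσα
  obtain ⟨e, he⟩ := exists_iso_small hθ hK hst hℓA hA₀c (K.mem_of_le _ hD).1 (K.mem_of_le _ hP).1
    hDc hPc (le_refl #A₀) (fun a : A₀ => (⟨f a, hfA₀D a⟩ : D))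
    (fun a : A₀ => (⟨a, hA₀P a.2⟩ : P)) (by
    have hthr := (hθ.pt.thr _ hαθ).le
    have h1 := EqS.map_emb hK hunb hℓα D.subtype (AEC.emb_subtype.2 hD) (hthr.trans hDc.ge) hσα
      (fun a : A₀ => (⟨f a, hfA₀D a⟩ : D))
    have h2 := EqS.map_emb hK hunb hℓα P.subtype (AEC.emb_subtype.2 hP) (hthr.trans hPc.ge) hσα
      (fun a : A₀ => (⟨a, hA₀P a.2⟩ : P))
    have h3 := EqS.map_emb hK hunb hℓα f hf (hthr.trans ((Order.le_succ θ).trans hCc.ge)) hσα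
      (fun a : A₀ => (a : C))
    exact (h1.trans h3.symm).trans h2.symm)
  -- the embedding of `N`
  obtain ⟨iDN, hiDN, hiDN'⟩ := exists_lift D.subtype N.subtype (AEC.emb_subtype.2 hD)
    (AEC.emb_subtype.2 hN) fun d => ⟨⟨d, hDN d.2⟩, rfl⟩
  obtain ⟨j₀, hj₀, hj₀'⟩ := hs D N (P.subtype.comp e.toEmbedding) iDN
    (AEC.Emb.comp (AEC.emb_subtype.2 hP) (AEC.Emb.of_equiv e (K.mem_of_le _ hD).1)) hiDN hDc hNc
  have hthrN : thr κf μ ≤ #N := (hθ.pt.thr μ hμθ).le.trans hNc.ge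
  let v₁' : κ → N := fun k => ⟨v₁ k, hv₁N k⟩
  -- preimages in `N`
  let DN : Set N := N.subtype ⁻¹' (D : Set C')
  let AN : Set N := N.subtype ⁻¹' ((A₀.map f.toHom : L.Substructure C') : Set C')
  have hAD' : ((A₀.map f.toHom : L.Substructure C') : Set C') ⊆ D := hA₀Pf.trans hPD
  have hDN' : N.subtype '' DN = (D : Set C') := by
    rw [image_preimage_eq_iff]
    exact fun x hx => ⟨⟨x, hDN hx⟩, rfl⟩
  have hAN' : N.subtype '' AN = ((A₀.map f.toHom : L.Substructure C') : Set C') := by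
    rw [image_preimage_eq_iff]
    exact fun x hx => ⟨⟨x, hDN (hAD' hx)⟩, rfl⟩
  have hiD : ∀ d : D, iDN d = ⟨(d : C'), hDN d.2⟩ := fun d => Subtype.ext (hiDN' d)
  have hjD : ∀ (x : N) (hx : (x : C') ∈ D), j₀ x = e ⟨x, hx⟩ := by
    intro x hx
    have h1 := hj₀' ⟨x, hx⟩
    rw [hiD] at h1
    exact h1
  have hjA : ∀ (a : C) (ha : a ∈ A₀), j₀ ⟨f a, hDN (hfA₀D ⟨a, ha⟩)⟩ = a := by
    intro a ha
    rw [hjD _ (hfA₀D ⟨a, ha⟩)]
    exact congrArg Subtype.val (he ⟨a, ha⟩)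
  have hj₀D : j₀ '' DN = (P : Set C) := by
    ext x
    constructor
    · rintro ⟨y, hy, rfl⟩
      rw [hjD y hy]
      exact (e _).2
    · intro hx
      obtain ⟨d, hd⟩ := e.surjective ⟨x, hx⟩
      refine ⟨⟨d, hDN d.2⟩, d.2, ?_⟩
      rw [hjD _ d.2]
      exact congrArg Subtype.val hd
  have hj₀A : j₀ '' AN = (A₀ : Set C) := by
    ext x
    constructor
    · rintro ⟨⟨y, hy'⟩, ⟨a, ha, hay⟩, rfl⟩
      have h1 : (⟨y, hy'⟩ : N) = ⟨f a, hDN (hfA₀D ⟨a, ha⟩)⟩ := Subtype.ext hay.symm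
      rw [h1, hjA a ha]
      exact ha
    · intro hx
      exact ⟨⟨f x, hDN (hfA₀D ⟨x, hx⟩)⟩, ⟨x, hx, rfl⟩, hjA x hx⟩
  have hv₂ : Ind L κf μ (A₀ : Set C) (P : Set C) fun k => j₀ (v₁' k) := by
    have h1 : Ind L κf μ AN DN v₁' :=
      (Ind.map_of hK hunb hl.hℓμ N.subtype (AEC.emb_subtype.2 hN) hthrN hκμ hAN' hDN'
        fun _ => rfl).1 hv₁D
    exact (Ind.map_of hK hunb hl.hℓμ j₀ hj₀ hthrN hκμ hj₀A hj₀D fun _ => rfl).2 h1
  have hvv : ∀ (ζ : Type u) (y : ζ → C), #ζ ≤ μ → (∀ z, y z ∈ A₀) →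
      EqS L μ (Sum.elim y fun k => j₀ (v₁' k)) (Sum.elim y v) := by
    intro ζ y hζ hy
    have hc := mk_sum_le' hμ hζ hκμ
    have h1 := EqS.map_emb hK hunb hl.hℓμ f hf hthrC hc (Sum.elim y v)
    have h2 := hv₁' ζ (fun z => f (y z)) hζ fun z => ⟨y z, hy z, rfl⟩
    let y' : ζ → N := fun z => ⟨f (y z), hDN (hfA₀D ⟨y z, hy z⟩)⟩
    have h3 := EqS.map_emb hK hunb hl.hℓμ N.subtype (AEC.emb_subtype.2 hN) hthrN hc
      (Sum.elim y' v₁')
    have h4 := EqS.map_emb hK hunb hl.hℓμ j₀ hj₀ hthrN hc (Sum.elim y' v₁')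
    have h5 : EqS L μ (Sum.elim y v) (Sum.elim (fun z => f (y z)) fun k => f (v k)) := by
      refine h1.subset ?_
      rintro _ ⟨z | k, rfl⟩
      · exact ⟨Sum.inl z, rfl⟩
      · exact ⟨Sum.inr k, rfl⟩
    have h6 : EqS L μ (Sum.elim y' v₁') (Sum.elim (fun z => f (y z)) v₁) := by
      refine h3.subset ?_
      rintro _ ⟨z | k, rfl⟩
      · exact ⟨Sum.inl z, rfl⟩
      · exact ⟨Sum.inr k, rfl⟩
    have h7 : EqS L μ (Sum.elim y' v₁') (Sum.elim y fun k => j₀ (v₁' k)) := by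
      refine h4.subset ?_
      rintro _ ⟨z | k, rfl⟩
      · exact ⟨Sum.inl z, Prod.ext rfl (hjA (y z) (hy z))⟩
      · exact ⟨Sum.inr k, rfl⟩
    exact ((h7.symm.trans h6).trans h2).trans h5.symm
  obtain ⟨σ, hσ, hσ'⟩ := exists_aut hθ hK hunb hl hCm hs hCc P hP hPc hκν
    (fun k => j₀ (v₁' k)) v fun ζ y hζ hy => Ind.uniq hμ hμρ hl.opB hκμ hA₀r hv₂
      (hA₀v.mono Set.subset_union_right) hvv hζ y fun z => Or.inr (hy z)
  -- the model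
  let j : N ↪[L] C := σ.toEmbedding.comp j₀
  have hj : K.Emb j := AEC.Emb.comp (AEC.Emb.of_equiv σ hCm) hj₀
  have hjd : ∀ x, j x = σ (j₀ x) := fun _ => rfl
  have hNj : #j.toHom.range = θ := (mk_congr j.equivRange.toEquiv).symm.trans hNc
  have hjD' : j '' DN = (P : Set C) := by
    rw [← hj₀D]
    ext x
    constructor
    · rintro ⟨y, hy, rfl⟩
      refine ⟨y, hy, ?_⟩
      have h1 : j₀ y ∈ P := by
        rw [← SetLike.mem_coe, ← hj₀D]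
        exact ⟨y, hy, rfl⟩
      rw [hjd, hσ _ h1]
    · rintro ⟨y, hy, rfl⟩
      refine ⟨y, hy, ?_⟩
      have h1 : j₀ y ∈ P := by
        rw [← SetLike.mem_coe, ← hj₀D]
        exact ⟨y, hy, rfl⟩
      rw [hjd, hσ _ h1]
  have hjv : ∀ k, j (v₁' k) = v k := hσ'
  refine ⟨j.toHom.range, hj, hNj, ?_, fun k => ⟨v₁' k, hjv k⟩, ?_⟩
  · intro x hx
    have h1 : x ∈ j '' DN := by
      rw [hjD']
      exact hx
    obtain ⟨y, -, rfl⟩ := h1
    exact ⟨y, rfl⟩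
  intro ζ ι hζ hι g r hr hg
  have hζμ := hζ.trans hl.νμ
  have hιμ := hι.trans hl.νμ
  choose r' hr' using hr
  obtain ⟨Q, hQ, hQA, hQc⟩ := exists_sub_card hK hℓθ hCm ((Order.le_succ θ).trans hCc.ge)
    (range j ∪ range g) ((mk_union_le _ _).trans (add_le_of_le hθ0
      (mk_range_le.trans hNc.le) (mk_range_le.trans (hζμ.trans hμθ.le))))
  obtain ⟨jQ, hjQ, hjQ'⟩ := exists_lift j Q.subtype hj (AEC.emb_subtype.2 hQ)
    fun a => ⟨⟨j a, hQA (Or.inl ⟨a, rfl⟩)⟩, rfl⟩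
  obtain ⟨k, hk, hk'⟩ := hsθ' N Q N.subtype jQ (AEC.emb_subtype.2 hN) hjQ hNc hQc
  have hthrQ : thr κf μ ≤ #Q := (hθ.pt.thr μ hμθ).le.trans hQc.ge
  let gQ : ζ → Q := fun z => ⟨g z, hQA (Or.inr ⟨z, rfl⟩)⟩
  let PQ : Set Q := jQ '' DN
  have hPQ : Q.subtype '' PQ = (P : Set C) := by
    rw [← hjD', ← image_comp]
    exact image_congr fun a _ => hjQ' a
  have hPQ' : k '' PQ = (D : Set C') := by
    rw [← hDN', ← image_comp]
    exact image_congr fun a _ => hk' a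
  have hgQ : Q.subtype '' range gQ = range g := by
    rw [← range_comp]
    rfl
  have h1 : Ind L κf μ PQ (range gQ) fun i => jQ (v₁' i) :=
    (Ind.map_of hK hunb hl.hℓμ Q.subtype (AEC.emb_subtype.2 hQ) hthrQ hκμ hPQ hgQ
      fun i => (hjQ' _).trans (hjv i)).1 hg
  have h2 : Ind L κf μ (D : Set C') (range fun z => k (gQ z)) v₁ :=
    (Ind.map_of hK hunb hl.hℓμ k hk hthrQ hκμ hPQ' (by rw [← range_comp]; rfl)
      fun i => hk' _).2 h1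
  have h3 := hdom ζ ι hζ hι (fun z => k (gQ z)) (fun i => (r' i : C')) (fun i => (r' i).2) h2
  have h4 : Ind L κf μ PQ (range gQ) fun i => jQ (r' i) :=
    (Ind.map_of hK hunb hl.hℓμ k hk hthrQ hιμ hPQ' (by rw [← range_comp]; rfl)
      fun i => hk' _).1 h3
  exact (Ind.map_of hK hunb hl.hℓμ Q.subtype (AEC.emb_subtype.2 hQ) hthrQ hιμ hPQ hgQ
    fun i => (hjQ' _).trans (hr' i)).2 h4

end Vale.Agent.P307.R2.H804
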