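import Vale.Agent.P307.R2.H804.Xfer

/-!
Domination implies isolation.
-/

set_option linter.unusedSectionVars false

universe u v w

open FirstOrder Cardinal Set

namespace Vale.Agent.P307.R2.H804

open Vale.Agent.P307 Vale.Agent.P307.H304 Vale.Agent.P307.R2.H287 Vale.Agent.P307.R2.H1
  Vale.Agent.P307.R2.H971 Vale.Agent.P307.R2.H806 Vale.Agent.P307.R2.H514
  Language.Structure Language.Substructure

variable {L : Language.{u, u}} {K : AEC L} {ℓ Λ μ ν ρ τ θ ν₀ : Cardinal.{u}}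
  {κf α : Cardinal.{u} → Cardinal.{u}}

/-- Independence from `g'` and from `M` together. -/
theorem ind_union (hθ : BasePt K ℓ κf α θ) (hK : K.IsLS ℓ)
    (hunb : ∀ ν, ν < κf ν ∧ K.CategoricalIn (κf ν)) (hl : Lvl ℓ κf α ν μ ρ θ)
    {C : Type u} [L.Structure C] (hCm : K.mem C) (hCc : #C = Order.succ θ)
    (P : L.Substructure C) (hP : K.le P) (hPc : #P = θ) {D : Set C} (hDP : D ⊆ P)
    (hD : Refl L ρ D) {κ ζ : Type u} (hκ : #κ ≤ ν) (hζ : #ζ ≤ ν) (v : κ → C) (g : ζ → C)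
    (h1 : Ind L κf μ D (range g) v) (h2 : Ind L κf μ D P (Sum.elim g v)) :
    Ind L κf μ D (range g ∪ P) v := by
  classical
  have hμ := hl.hμ hK
  have hκμ := hκ.trans hl.νμ
  have hζμ := hζ.trans hl.νμ
  have hCκ : opB κf μ ≤ #C := le_card_sat hθ hK hunb hl hCc
  have h6 : ∀ (ξ : Type u) (m : ξ → C), #ξ ≤ μ → (∀ z, m z ∈ P) →
      Ind L κf μ D (range g ∪ range m) v := by
    intro ξ m hξ hm
    refine Ind.pairs hK hunb hl.hℓμ hCm hCκ hκμ hξ h1 ?_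
    have h8 := Ind.symm hK hunb hl.hℓμ hCm hCκ hξ (mk_sum_le' hμ hζμ hκμ)
      (ind_empty hθ hK hunb hl P hP hPc hξ m hDP hD) (h2.mono (by
        rintro _ ⟨z, rfl⟩
        exact Or.inr (hm z)))
    rwa [Sum.elim_range] at h8
  refine Ind.of_small hμ (hl.μρ hunb) hl.opB hκμ hD
    (ind_empty hθ hK hunb hl P hP hPc hκμ v hDP hD) fun ξ m hξ hm => ?_
  refine (h6 {z // m z ∈ P} (fun z => m z) ((mk_subtype_le _).trans hξ) fun z => z.2).mono ?_
  rintro _ ⟨z, rfl⟩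
  rcases hm z with h8 | h8
  · exact Or.inr (Or.inl h8)
  · exact Or.inr (Or.inr ⟨⟨z, h8⟩, rfl⟩)

/-- **Domination implies isolation.** -/
theorem exists_isol (hθ : BasePt K ℓ κf α θ) (hK : K.IsLS ℓ)
    (hunb : ∀ ν, ν < κf ν ∧ K.CategoricalIn (κf ν)) (hl : Lvl ℓ κf α ν μ ρ θ)
    (hρθ : thr κf ρ < θ) (hℓν : ℓ ≤ ν₀) (hν : H1.tB α ν₀ ≤ ν) {C : Type u} [L.Structure C]
    (hCm : K.mem C) (hCc : #C = Order.succ θ) (hs : Sat K θ C) (P : L.Substructure C)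
    (hP : K.le P) (hPc : #P = θ) {κ : Type u} (hκ : #κ ≤ ν₀) (v : κ → C) {N : Set C}
    (hvN : ∀ k, v k ∈ N) (hdom : DomOver L κf μ ν (P : Set C) N v) {ι : Type u} (hι : #ι ≤ ν₀)
    (e : ι → C) (he : ∀ i, e i ∈ N) :
    ∃ D : L.Substructure C, K.le D ∧ D ≤ P ∧ #D < θ ∧ ∀ g : C ≃[L] C, (∀ x ∈ D, g x = x) →
      (∀ k, g (v k) = v k) → ∃ h : C ≃[L] C, (∀ x ∈ P, h x = x) ∧ (∀ k, h (v k) = v k) ∧
        ∀ i, h (e i) = g (e i) := by
  classical
  have hμ := hl.hμ hK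
  have hμρ := hl.μρ hunb
  have hν₀0 : ℵ₀ ≤ ν₀ := hK.1.trans hℓν
  have hν₀ν : ν₀ ≤ ν := (hθ.le_tb ν₀ hℓν).trans hν
  have hν₀θ : ν₀ < θ := (hν₀ν.trans hl.νμ).trans_lt (hl.μΛ hunb)
  have hν0 : ℵ₀ ≤ ν := hν₀0.trans hν₀ν
  have hqν₀ : #(ι ⊕ κ) ≤ ν₀ := mk_sum_le' hν₀0 hι hκ
  have hqν := hqν₀.trans hν₀ν
  have hqμ := hqν.trans hl.νμ
  have hκν := hκ.trans hν₀ν
  have hκμ := hκν.trans hl.νμ
  have hCκ : opB κf μ ≤ #C := le_card_sat hθ hK hunb hl hCc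
  let q : ι ⊕ κ → C := Sum.elim e v
  obtain ⟨D, hD, hDP, hDc, -, hDr, hDq⟩ := exists_small_base hθ hK hunb hl hρθ P hP hPc hqμ q
  refine ⟨D, hD, hDP, hDc, fun g hgD hgv => ?_⟩
  have key : ∀ (ζ : Type u) (m : ζ → C), #ζ ≤ ν → (∀ z, m z ∈ P) →
      EqS L μ (Sum.elim m q) (Sum.elim m fun i => g (q i)) := by
    intro ζ m hζ hm
    have hζμ := hζ.trans hl.νμ
    let m' : ζ → C := fun z => g.symm (m z)
    have hgD' : ∀ x ∈ D, g.symm x = x := fun x hx => by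
      rw [← hgD x hx, g.symm_apply_apply, hgD x hx]
    have hgi : g.symm '' (D : Set C) = D := by
      ext x
      constructor
      · rintro ⟨y, hy, rfl⟩
        rw [hgD' y hy]
        exact hy
      · intro hx
        exact ⟨x, hx, hgD' x hx⟩
    have h1 : Ind L κf μ (D : Set C) (range m) q := hDq.mono (by
      rintro _ ⟨z, rfl⟩
      exact Or.inr (hm z))
    have h2 : Ind L κf μ (D : Set C) (range m') v := by
      have h3 := (h1.comp (Sum.inr : κ → ι ⊕ κ)).equiv hμ hκμ g.symm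
      rw [hgi, ← range_comp] at h3
      have h4 : (fun i => g.symm (q (Sum.inr i))) = v := by
        funext i
        change g.symm (v i) = v i
        rw [← hgv i, g.symm_apply_apply, hgv i]
      rwa [h4] at h3
    -- the free extension
    have hqζ : #((ι ⊕ κ) ⊕ ζ) ≤ ν := mk_sum_le' hν0 hqν hζ
    obtain ⟨q₁, hq₁, hq₁'⟩ := exists_free hθ hK hunb hl hs P hP hPc (hqζ.trans hl.νμ)
      (Sum.elim q m') hDP hDr
    obtain ⟨σ, hσ, hσ'⟩ := exists_aut hθ hK hunb hl hCm hs hCc P hP hPc hqν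
      (fun i => q₁ (Sum.inl i)) q fun ξ y hξ hy =>
        Ind.uniq hμ hμρ hl.opB hqμ hDr (hq₁.comp Sum.inl) hDq (fun ζ' y' hζ' hy' => by
          refine (hq₁' ζ' y' hζ' hy').subset ?_
          rintro _ ⟨k | i, rfl⟩
          · exact ⟨Sum.inl k, rfl⟩
          · exact ⟨Sum.inr (Sum.inl i), rfl⟩) hξ y fun z => Or.inr (hy z)
    let m₂ : ζ → C := fun z => σ (q₁ (Sum.inr z))
    have himg : ∀ X : Set C, X ⊆ P → σ '' X = X := by
      intro X hX
      ext x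
      constructor
      · rintro ⟨y, hy, rfl⟩
        rw [hσ y (hX hy)]
        exact hy
      · intro hx
        exact ⟨x, hx, hσ x (hX hx)⟩
    have hq' : (fun i => σ (q₁ i)) = Sum.elim q m₂ := by
      funext i
      rcases i with i | i
      · exact hσ' i
      · rfl
    have h3 : Ind L κf μ (D : Set C) P (Sum.elim q m₂) := by
      have h4 := hq₁.equiv hμ (hqζ.trans hl.νμ) σ
      rw [himg D hDP, himg P Subset.rfl, hq'] at h4
      exact h4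
    have h4 : ∀ (ξ : Type u) (y : ξ → C), #ξ ≤ μ → (∀ z, y z ∈ D) →
        EqS L μ (Sum.elim y (Sum.elim q m₂)) (Sum.elim y (Sum.elim q m')) := by
      intro ξ y hξ hy
      have h5 := EqS.equiv hμ (mk_sum_le' hμ hξ (hqζ.trans hl.νμ)) σ (Sum.elim y q₁)
      refine EqS.trans (EqS.symm (h5.subset ?_)) (hq₁' ξ y hξ hy)
      rintro _ ⟨k | i, rfl⟩
      · exact ⟨Sum.inl k, Prod.ext rfl (hσ _ (hDP (hy k)))⟩
      · exact ⟨Sum.inr i, Prod.ext rfl (congrFun hq' i)⟩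
    have h5 : Ind L κf μ (D : Set C) (range m₂) v :=
      h2.transfer hμ hκμ hζμ fun ξ y hξ hy => (h4 ξ y hξ hy).symm.subset (by
        rintro _ ⟨k | z | i, rfl⟩
        · exact ⟨Sum.inl k, rfl⟩
        · exact ⟨Sum.inr (Sum.inr z), rfl⟩
        · exact ⟨Sum.inr (Sum.inl (Sum.inr i)), rfl⟩)
    have h6 : Ind L κf μ (D : Set C) (range m₂ ∪ P) v := by
      refine ind_union hθ hK hunb hl hCm hCc P hP hPc hDP hDr hκν hζ v m₂ h5 ?_
      have h7 := h3.comp (ζ := ζ ⊕ κ) (Sum.elim Sum.inr fun i => Sum.inl (Sum.inr i))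
      have h8 : (fun z => Sum.elim q m₂ ((Sum.elim Sum.inr fun i => Sum.inl (Sum.inr i) :
          ζ ⊕ κ → (ι ⊕ κ) ⊕ ζ) z)) = Sum.elim m₂ v := by
        funext z
        rcases z with z | z <;> rfl
      rwa [h8] at h7
    have h7 : Ind L κf μ (P : Set C) (range m₂) v :=
      (h6.base (D' := (P : Set C)) hDP fun x hx => Or.inr (Or.inr hx)).mono fun x hx =>
        Or.inr (Or.inl hx)
    have h8 : Ind L κf μ (P : Set C) (range m₂) q := hdom ζ (ι ⊕ κ) hζ hqν m₂ q (by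
      rintro (i | i)
      · exact he i
      · exact hvN i) h7
    have h9 : Ind L κf μ (D : Set C) (range m₂) q :=
      (hDq.trans hμ hμρ hl.opB hqμ (refl_big hθ hK hunb hl P hP hPc) hDP h8).mono fun x hx =>
        Or.inr (Or.inr hx)
    have h10 : Ind L κf μ (D : Set C) (range m') q :=
      h9.transfer hμ hqμ hζμ fun ξ y hξ hy => (h4 ξ y hξ hy).subset (by
        rintro _ ⟨k | z | i, rfl⟩
        · exact ⟨Sum.inl k, rfl⟩
        · exact ⟨Sum.inr (Sum.inr z), rfl⟩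
        · exact ⟨Sum.inr (Sum.inl i), rfl⟩)
    have h11 : Ind L κf μ (D : Set C) (range q) m' :=
      Ind.symm hK hunb hl.hℓμ hCm hCκ hζμ hqμ
        (ind_empty hθ hK hunb hl P hP hPc hζμ m' hDP hDr) h10
    have h12 : Ind L κf μ (D : Set C) (range q) m :=
      Ind.symm hK hunb hl.hℓμ hCm hCκ hζμ hqμ
        (ind_empty hθ hK hunb hl P hP hPc hζμ m hDP hDr) h1
    have h13 : EqS L μ (Sum.elim q m) (Sum.elim q m') := by
      refine Ind.uniq hμ hμρ hl.opB hζμ hDr h12 h11 (fun ξ y hξ hy => ?_) hqμ q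
        fun z => Or.inr ⟨z, rfl⟩
      have h14 := EqS.equiv hμ (mk_sum_le' hμ hξ hζμ) g.symm (Sum.elim y m)
      refine h14.subset ?_
      rintro _ ⟨k | z, rfl⟩
      · exact ⟨Sum.inl k, Prod.ext rfl (hgD' _ (hy k))⟩
      · exact ⟨Sum.inr z, rfl⟩
    have h14 := EqS.equiv hμ (mk_sum_le' hμ hqμ hζμ) g (Sum.elim q m')
    refine (h13.trans h14).subset ?_
    rintro _ ⟨z | i, rfl⟩
    · exact ⟨Sum.inr z, Prod.ext rfl (g.apply_symm_apply (m z))⟩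
    · exact ⟨Sum.inl i, rfl⟩
  have ht0 : ℵ₀ ≤ H1.tB α ν₀ := hν₀0.trans (hθ.le_tb ν₀ hℓν)
  obtain ⟨h, h1, h2⟩ := exists_aut_over hθ hK hunb hCm hs hCc P hP hPc hℓν hν₀θ hqν₀ q
    (fun i => g (q i)) fun Q a hQ ha => (key Q a (hQ.trans hν) ha).mono ht0
      (hν.trans hl.νμ) (mk_sum_le' ht0 hQ (hqν₀.trans (hθ.le_tb ν₀ hℓν)))
  refine ⟨h, h1, fun k => ?_, fun i => h2 (Sum.inl i)⟩
  exact (h2 (Sum.inr k)).trans (hgv k)

end Vale.Agent.P307.R2.H804
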