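import Vale.Agent.P307.R2.H804.Free

/-!
The independence relation at one level.
-/

set_option linter.unusedSectionVars false

universe u v w

open FirstOrder Cardinal Set

namespace Vale.Agent.P307.R2.H804

open Vale.Agent.P307 Vale.Agent.P307.H304 Vale.Agent.P307.R2.H287 Vale.Agent.P307.R2.H1
  Vale.Agent.P307.R2.H971 Language.Structure Language.Substructure

variable {L : Language.{u, u}} {K : AEC L} {ℓ μ ρ : Cardinal.{u}}
  {κf : Cardinal.{u} → Cardinal.{u}} {N : Type u} [L.Structure N] {ι ζ : Type u}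
  {D D' B B' : Set N} {r r' : ι → N}

variable (L κf) in
/-- Independence of `r` and `B` over `D` at the level `μ`. -/
def Ind (μ : Cardinal.{u}) {ι : Type u} (D B : Set N) (r : ι → N) : Prop :=
  ∃ a : SuccTy (opB κf μ) → ι → N, (∀ x i, a x i ∈ D) ∧ Conv L μ a r (D ∪ B)

theorem mk_succTy (μ : Cardinal.{u}) : #(SuccTy μ) = Order.succ μ := by
  rw [mk_toType, card_ord]

theorem mk_sum_le' (hμ : ℵ₀ ≤ μ) {ι ζ : Type u} (hι : #ι ≤ μ) (hζ : #ζ ≤ μ) :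
    #(ι ⊕ ζ) ≤ μ := by
  rw [mk_sum, lift_id, lift_id]
  exact add_le_of_le hμ hι hζ

theorem Ind.mono (h : Ind L κf μ D B r) (hB : B' ⊆ D ∪ B) : Ind L κf μ D B' r := by
  obtain ⟨a, h1, h2⟩ := h
  exact ⟨a, h1, h2.mono (union_subset subset_union_left hB)⟩

theorem Ind.base (h : Ind L κf μ D B r) (hD : D ⊆ D') (hD' : D' ⊆ D ∪ B) :
    Ind L κf μ D' B r := by
  obtain ⟨a, h1, h2⟩ := h
  exact ⟨a, fun x i => hD (h1 x i), h2.mono (union_subset hD' subset_union_right)⟩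

theorem Ind.comp (h : Ind L κf μ D B r) (f : ζ → ι) : Ind L κf μ D B fun z => r (f z) := by
  obtain ⟨a, h1, h2⟩ := h
  exact ⟨fun x z => a x (f z), fun x z => h1 x _, h2.comp f⟩

theorem Ind.congr (h : Ind L κf μ D B r)
    (hr : ∀ (ζ : Type u) (y : ζ → N), #ζ ≤ μ → (∀ z, y z ∈ D ∪ B) →
      EqS L μ (Sum.elim y r) (Sum.elim y r')) : Ind L κf μ D B r' := by
  obtain ⟨a, h1, h2⟩ := h
  exact ⟨a, h1, h2.congr hr⟩

theorem Ind.equiv {M : Type u} [L.Structure M] (hμ : ℵ₀ ≤ μ) (hι : #ι ≤ μ)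
    (h : Ind L κf μ D B r) (e : N ≃[L] M) :
    Ind L κf μ (e '' D) (e '' B) fun i => e (r i) := by
  obtain ⟨a, h1, h2⟩ := h
  refine ⟨fun x i => e (a x i), fun x i => ⟨_, h1 x i, rfl⟩, ?_⟩
  rw [← image_union]
  exact h2.equiv hμ hι e

/-- All sequences converging over the base converge. -/
theorem Ind.conv (hμ : ℵ₀ ≤ μ) (hμρ : μ ≤ ρ) (hρ : Order.succ (opB κf μ) ≤ ρ) (hι : #ι ≤ μ)
    (hD : Refl L ρ D) (h : Ind L κf μ D B r) {X : Type u} [LinearOrder X] (hX : #X ≤ ρ)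
    {a : X → ι → N} (ha : ∀ x i, a x i ∈ D) (ha' : Conv L μ a r D) : Conv L μ a r (D ∪ B) := by
  obtain ⟨a', h1, h2⟩ := h
  exact Conv.key hμ hμρ hι hX ((mk_succTy _).trans_le hρ) hD ha h1 ha' h2

/-- Transitivity. -/
theorem Ind.trans (hμ : ℵ₀ ≤ μ) (hμρ : μ ≤ ρ) (hρ : Order.succ (opB κf μ) ≤ ρ) (hι : #ι ≤ μ)
    (hD' : Refl L ρ D') (hDD' : D ⊆ D') (h : Ind L κf μ D D' r) (h' : Ind L κf μ D' B r) :
    Ind L κf μ D (D' ∪ B) r := by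
  obtain ⟨a, h1, h2⟩ := h
  refine ⟨a, h1, ?_⟩
  have h3 := h'.conv hμ hμρ hρ hι hD' ((mk_succTy _).trans_le hρ) (fun x i => hDD' (h1 x i))
    (h2.mono subset_union_right)
  exact h3.mono (union_subset (hDD'.trans subset_union_left) Subset.rfl)

/-- Uniqueness. -/
theorem Ind.uniq (hμ : ℵ₀ ≤ μ) (hμρ : μ ≤ ρ) (hρ : Order.succ (opB κf μ) ≤ ρ) (hι : #ι ≤ μ)
    (hD : Refl L ρ D) (h : Ind L κf μ D B r) (h' : Ind L κf μ D B r')
    (hr : ∀ (ζ : Type u) (y : ζ → N), #ζ ≤ μ → (∀ z, y z ∈ D) →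
      EqS L μ (Sum.elim y r) (Sum.elim y r')) (hζ : #ζ ≤ μ) (y : ζ → N)
    (hy : ∀ z, y z ∈ D ∪ B) : EqS L μ (Sum.elim y r) (Sum.elim y r') := by
  obtain ⟨a, h1, h2⟩ := h
  obtain ⟨a', h3, h4⟩ := h'
  exact Conv.uniq hμ hμρ hι ((mk_succTy _).trans_le hρ) ((mk_succTy _).trans_le hρ) hD h1 h3 h2
    h4 hr hζ y hy

/-- Independence from small tuples is enough. -/
theorem Ind.of_small (hμ : ℵ₀ ≤ μ) (hμρ : μ ≤ ρ) (hρ : Order.succ (opB κf μ) ≤ ρ)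
    (hι : #ι ≤ μ) (hD : Refl L ρ D) (h : Ind L κf μ D ∅ r)
    (h' : ∀ (ζ : Type u) (m : ζ → N), #ζ ≤ μ → (∀ z, m z ∈ B) → Ind L κf μ D (range m) r) :
    Ind L κf μ D B r := by
  classical
  obtain ⟨a, h1, h2⟩ := h
  refine ⟨a, h1, fun ζ y hζ hy => ?_⟩
  have h3 := (h' {z // y z ∈ B} (fun z => y z) ((mk_subtype_le _).trans hζ) fun z => z.2).conv
    hμ hμρ hρ hι hD ((mk_succTy _).trans_le hρ) h1 (h2.mono subset_union_left)
  refine h3 ζ y hζ fun z => ?_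
  rcases hy z with h4 | h4
  · exact Or.inl h4
  · exact Or.inr ⟨⟨z, h4⟩, rfl⟩

/-- Moving the right side by an equality of types. -/
theorem Ind.transfer (hμ : ℵ₀ ≤ μ) (hι : #ι ≤ μ) (hζ : #ζ ≤ μ) {g g' : ζ → N}
    (h : Ind L κf μ D (range g) r)
    (hr : ∀ (ξ : Type u) (y : ξ → N), #ξ ≤ μ → (∀ z, y z ∈ D) →
      EqS L μ (Sum.elim y (Sum.elim g r)) (Sum.elim y (Sum.elim g' r'))) :
    Ind L κf μ D (range g') r' := by
  classical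
  obtain ⟨a, h1, h2⟩ := h
  refine ⟨a, h1, fun ξ y hξ hy => ?_⟩
  let ξ' : Type u := {k : ξ // y k ∈ D}
  have hξ' : #ξ' ≤ μ := (mk_subtype_le _).trans hξ
  let d : ξ' → N := fun k => y k
  obtain ⟨x₀, hx₀⟩ := h2 (ξ' ⊕ ζ) (Sum.elim d g) (mk_sum_le' hμ hξ' hζ) (by
    rintro (k | z)
    · exact Or.inl k.2
    · exact Or.inr ⟨z, rfl⟩)
  refine ⟨x₀, fun x hx => ?_⟩
  have h3 := hr (ξ' ⊕ ι) (Sum.elim d (a x)) (mk_sum_le' hμ hξ' hι) (by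
    rintro (k | i)
    · exact k.2
    · exact h1 x i)
  have h4 := hr ξ' d hξ' fun k => k.2
  have h5 : EqS L μ (Sum.elim (Sum.elim d g') (a x)) (Sum.elim (Sum.elim d g) (a x)) := by
    refine EqS.symm (h3.subset ?_)
    rintro _ ⟨(k | z) | i, rfl⟩
    · exact ⟨Sum.inl (Sum.inl k), rfl⟩
    · exact ⟨Sum.inr (Sum.inl z), rfl⟩
    · exact ⟨Sum.inl (Sum.inr i), rfl⟩
  have h6 : EqS L μ (Sum.elim (Sum.elim d g) r) (Sum.elim (Sum.elim d g') r') := by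
    refine h4.subset ?_
    rintro _ ⟨(k | z) | i, rfl⟩
    · exact ⟨Sum.inl k, rfl⟩
    · exact ⟨Sum.inr (Sum.inl z), rfl⟩
    · exact ⟨Sum.inr (Sum.inr i), rfl⟩
  have h7 := (h5.trans (hx₀ x hx)).trans h6
  refine h7.subset ?_
  rintro _ ⟨k | i, rfl⟩
  · by_cases hk : y k ∈ D
    · exact ⟨Sum.inl (Sum.inl ⟨k, hk⟩), rfl⟩
    · rcases hy k with h8 | ⟨z, hz⟩
      · exact absurd h8 hk
      · exact ⟨Sum.inl (Sum.inr z), by simp [hz]⟩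
  · exact ⟨Sum.inr i, rfl⟩

section

variable (hK : K.IsLS ℓ) (hunb : ∀ ν, ν < κf ν ∧ K.CategoricalIn (κf ν)) (hℓ : ℓ ≤ μ)

include hK hunb hℓ

theorem dir_opB : Dir (opB κf μ) (SuccTy (opB κf μ)) :=
  dir_succTy (((hK.1.trans hℓ)).trans (le_opB hunb μ))

/-- Pairs lemma: `v ⫝ g` and `m ⫝ (g, v)` give `v ⫝ (g, m)`. -/
theorem Ind.pairs (hN : K.mem N) (hNκ : opB κf μ ≤ #N) {G : Set N} {ι ζ : Type u}
    (hι : #ι ≤ μ) (hζ : #ζ ≤ μ) {v : ι → N} {m : ζ → N} (h1 : Ind L κf μ D G v)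
    (h2 : Ind L κf μ D (G ∪ range v) m) : Ind L κf μ D (G ∪ range m) v := by
  obtain ⟨a, ha, ha'⟩ := h1
  obtain ⟨c, hc, hc'⟩ := h2
  refine ⟨a, ha, ?_⟩
  have h3 := Conv.symm hK hunb hℓ hN hNκ (dir_opB hK hunb hℓ) (dir_opB hK hunb hℓ) hι hζ ha hc
    ha' (by rwa [union_assoc])
  rwa [← union_assoc]

/-- Symmetry. -/
theorem Ind.symm (hN : K.mem N) (hNκ : opB κf μ ≤ #N) {ι ζ : Type u}
    (hι : #ι ≤ μ) (hζ : #ζ ≤ μ) {v : ι → N} {m : ζ → N} (h1 : Ind L κf μ D ∅ v)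
    (h2 : Ind L κf μ D (range v) m) : Ind L κf μ D (range m) v := by
  have h3 := Ind.pairs hK hunb hℓ hN hNκ hι hζ h1 (by rwa [empty_union])
  rwa [empty_union] at h3

end

end Vale.Agent.P307.R2.H804
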