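import Vale.Agent.P307.R2.H804.Free
import Vale.Agent.P307.R2.H1.Base

/-!
Conjugacy of small tuples over a strong submodel of a saturated member.
-/

set_option linter.unusedSectionVars false

universe u v w

open FirstOrder Cardinal Set

namespace Vale.Agent.P307.R2.H804

open Vale.Agent.P307 Vale.Agent.P307.H304 Vale.Agent.P307.R2.H287 Vale.Agent.P307.R2.H1
  Vale.Agent.P307.R2.H971 Language.Structure Language.Substructure

variable {L : Language.{u, u}} {K : AEC L} {ℓ θ : Cardinal.{u}}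
  {κf α : Cardinal.{u} → Cardinal.{u}}

/-- Small tuples with the same type over a strong submodel of size `θ` are conjugate. -/
theorem exists_aut_over (h : BasePt K ℓ κf α θ) (hK : K.IsLS ℓ)
    (hunb : ∀ ν, ν < κf ν ∧ K.CategoricalIn (κf ν)) {C : Type u} [L.Structure C] (hCm : K.mem C)
    (hs : Sat K θ C) (hCc : #C = Order.succ θ) (M : L.Substructure C) (hM : K.le M)
    (hMc : #M = θ) {s₀ : Cardinal.{u}} (hs₀ : ℓ ≤ s₀) (hs₀θ : s₀ < θ) {ι : Type u} (hι : #ι ≤ s₀)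
    (r s : ι → C) (hrs : ∀ (Q : Type u) (a : Q → C), #Q ≤ tB α s₀ → (∀ q, a q ∈ M) →
      EqS L (tB α s₀) (Sum.elim a r) (Sum.elim a s)) :
    ∃ g : C ≃[L] C, (∀ x ∈ M, g x = x) ∧ ∀ i, g (r i) = s i := by
  have hθ : ℵ₀ ≤ θ := hK.1.trans h.pt.lt.le
  have hℓθ : ℓ ≤ θ := h.pt.lt.le
  have htB : tB α s₀ < θ := h.tb s₀ hs₀θ
  have hℓt : ℓ ≤ tB α s₀ := hs₀.trans (h.le_tb s₀ hs₀)
  have hιt : #ι ≤ tB α s₀ := hι.trans (h.le_tb s₀ hs₀)
  have hιθ : #ι ≤ θ := hι.trans hs₀θ.le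
  obtain ⟨S, hS, hSA, hSc⟩ := exists_sub_card hK hℓθ hCm ((Order.le_succ θ).trans hCc.ge)
    ((M : Set C) ∪ (range r ∪ range s)) ((mk_union_le _ _).trans (add_le_of_le hθ hMc.le
      ((mk_union_le _ _).trans (add_le_of_le hθ (mk_range_le.trans hιθ)
        (mk_range_le.trans hιθ)))))
  have hrS : ∀ i, r i ∈ S := fun i => hSA (Or.inr (Or.inl ⟨i, rfl⟩))
  have hsS : ∀ i, s i ∈ S := fun i => hSA (Or.inr (Or.inr ⟨i, rfl⟩))
  obtain ⟨M', _, β, hβ, hM'⟩ := h.largeExt hK hunb (thr κf θ) S (K.mem_of_le _ hS).1 hSc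
  obtain ⟨k, hk, hk'⟩ := exists_lift M.subtype S.subtype (AEC.emb_subtype.2 hM)
    (AEC.emb_subtype.2 hS) fun a => ⟨⟨a, hSA (Or.inl a.2)⟩, rfl⟩
  have hkm : ∀ a : M, (k a : C) = a := hk'
  let f : M ↪[L] M' := β.comp k
  have hf : K.Emb f := AEC.Emb.comp hβ hk
  have hthr : thr κf (tB α s₀) ≤ #S := (h.pt.thr _ htB).le.trans hSc.ge
  have htr : ∀ (Q : Type u) (a : Q → M) (x : ι → C) (hx : ∀ i, x i ∈ S), #Q ≤ tB α s₀ →
      EqS L (tB α s₀) (Sum.elim (fun q => (a q : C)) x)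
        (Sum.elim (fun q => f (a q)) fun i => β ⟨x i, hx i⟩) := by
    intro Q a x hx hQ
    have hc : #(Q ⊕ ι) ≤ tB α s₀ := by
      rw [mk_sum, lift_id, lift_id]
      exact add_le_of_le (hK.1.trans hℓt) hQ hιt
    have h1 := EqS.map_emb hK hunb hℓt S.subtype (AEC.emb_subtype.2 hS) hthr hc
      (Sum.elim (fun q => k (a q)) fun i => ⟨x i, hx i⟩)
    have h2 := EqS.map_emb hK hunb hℓt β hβ hthr hc
      (Sum.elim (fun q => k (a q)) fun i => ⟨x i, hx i⟩)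
    have h3 : EqS L (tB α s₀) (Sum.elim (fun q => k (a q)) fun i => (⟨x i, hx i⟩ : S))
        (Sum.elim (fun q => (a q : C)) x) := by
      refine h1.subset ?_
      rintro _ ⟨q | i, rfl⟩
      · exact ⟨Sum.inl q, Prod.ext rfl (hkm (a q))⟩
      · exact ⟨Sum.inr i, rfl⟩
    refine EqS.trans (EqS.symm h3) (h2.subset ?_)
    rintro _ ⟨q | i, rfl⟩
    · exact ⟨Sum.inl q, rfl⟩
    · exact ⟨Sum.inr i, rfl⟩
  have h1 := h.ab_plus hK hunb f f hf hf hMc hM' hM' hs₀ hs₀θ hι (fun i => β ⟨r i, hrS i⟩)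
    (fun i => β ⟨s i, hsS i⟩) (fun Q a hQ => ((htr Q a r hrS hQ).symm.trans
      (hrs Q (fun q => a q) hQ fun q => (a q).2)).trans (htr Q a s hsS hQ))
  have hβr : #β.toHom.range = θ := (mk_congr β.equivRange.toEquiv).symm.trans hSc
  obtain ⟨g, hg, -, hg'⟩ := exists_emb_of_good hK hℓθ hβ.mem_right hβ.mem_right h1
    β.toHom.range hβ hβr.le
  let g' : S ↪[L] M' := g.comp β.equivRange.toEmbedding
  have hgg : K.Emb g' := AEC.Emb.comp hg (AEC.Emb.of_equiv _ (K.mem_of_le _ hS).1)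
  have hg1 : ∀ a : M, g' (k a) = β (k a) := fun a => hg' _ ⟨Sum.inl a, rfl⟩ _
  have hg2 : ∀ i, g' ⟨r i, hrS i⟩ = β ⟨s i, hsS i⟩ := fun i => hg' _ ⟨Sum.inr i, rfl⟩ _
  have hθM' : θ ≤ #M' := hSc.symm.trans_le (mk_le_of_injective β.injective)
  obtain ⟨S', hS', hSA', hSc'⟩ := exists_sub_card hK hℓθ hβ.mem_right hθM' (range β ∪ range g')
    ((mk_union_le _ _).trans (add_le_of_le hθ (mk_range_le.trans hSc.le)
      (mk_range_le.trans hSc.le)))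
  obtain ⟨β₁, hβ₁, hβ₁'⟩ := exists_lift β S'.subtype hβ (AEC.emb_subtype.2 hS')
    fun a => ⟨⟨β a, hSA' (Or.inl ⟨a, rfl⟩)⟩, rfl⟩
  obtain ⟨g₁, hg₁, hg₁'⟩ := exists_lift g' S'.subtype hgg (AEC.emb_subtype.2 hS')
    fun a => ⟨⟨g' a, hSA' (Or.inr ⟨a, rfl⟩)⟩, rfl⟩
  obtain ⟨j, hj, hj'⟩ := hs S S' S.subtype β₁ (AEC.emb_subtype.2 hS) hβ₁ hSc hSc'
  obtain ⟨e, he⟩ := hs.exists_iso hK hℓθ hs hCc hCc S.subtype (j.comp g₁)
    (AEC.emb_subtype.2 hS) (AEC.Emb.comp hj hg₁) hSc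
  have h2 : ∀ a : M, g₁ (k a) = β₁ (k a) := by
    intro a
    have h3 : S'.subtype (g₁ (k a)) = S'.subtype (β₁ (k a)) := by
      rw [hg₁', hβ₁', hg1]
    exact S'.subtype.injective h3
  have h3 : ∀ i, g₁ ⟨r i, hrS i⟩ = β₁ ⟨s i, hsS i⟩ := by
    intro i
    have h4 : S'.subtype (g₁ ⟨r i, hrS i⟩) = S'.subtype (β₁ ⟨s i, hsS i⟩) := by
      rw [hg₁', hβ₁', hg2]
    exact S'.subtype.injective h4
  refine ⟨e, fun x hx => ?_, fun i => ?_⟩
  · have h4 := he (k ⟨x, hx⟩)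
    have h5 : S.subtype (k ⟨x, hx⟩) = x := hkm ⟨x, hx⟩
    rw [h5] at h4
    refine h4.trans ?_
    change j (g₁ (k ⟨x, hx⟩)) = x
    rw [h2, hj']
    exact hkm ⟨x, hx⟩
  · have h4 := he ⟨r i, hrS i⟩
    refine h4.trans ?_
    change j (g₁ ⟨r i, hrS i⟩) = s i
    rw [h3, hj']
    rfl

end Vale.Agent.P307.R2.H804
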