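import Vale.Agent.P307.R2.H804.IndRel
import Vale.Agent.P307.R2.H804.Conj

/-!
Free extensions and the descent of domination to a small base.
-/

set_option linter.unusedSectionVars false

universe u v w

open FirstOrder Cardinal Set

namespace Vale.Agent.P307.R2.H804

open Vale.Agent.P307 Vale.Agent.P307.H304 Vale.Agent.P307.R2.H287 Vale.Agent.P307.R2.H1
  Vale.Agent.P307.R2.H971 Language.Structure Language.Substructure

variable {L : Language.{u, u}} {K : AEC L} {ℓ Λ μ ν ρ : Cardinal.{u}}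
  {κf α : Cardinal.{u} → Cardinal.{u}}

/-- The levels: tuples of length at most `ν`, types at the level `μ`, bases reflecting at the
level `ρ`, all below `Λ`. -/
structure Lvl (ℓ : Cardinal.{u}) (κf α : Cardinal.{u} → Cardinal.{u}) (ν μ ρ Λ : Cardinal.{u}) :
    Prop where
  hℓ : ℓ ≤ ν
  tB : tB α ν ≤ μ
  νμ : ν ≤ μ
  opB : Order.succ (opB κf μ) ≤ ρ
  limB : limB κf μ ≤ ρ
  lt : ρ < Λ
  thr : thr κf ρ ≤ Λ
  thr' : H287.thr κf μ ≤ Λ
  thr'' : H287.thr κf (H1.opB κf μ) ≤ Λ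

variable (hΛ : BasePt K ℓ κf α Λ) (hK : K.IsLS ℓ)
  (hunb : ∀ ν, ν < κf ν ∧ K.CategoricalIn (κf ν)) (hl : Lvl ℓ κf α ν μ ρ Λ)

include hK hl in
theorem Lvl.hμ : ℵ₀ ≤ μ := (hK.1.trans hl.hℓ).trans hl.νμ

include hl in
theorem Lvl.hℓμ : ℓ ≤ μ := hl.hℓ.trans hl.νμ

include hunb hl in
theorem Lvl.μρ : μ ≤ ρ := ((le_opB hunb μ).trans (Order.le_succ _)).trans hl.opB

include hunb hl in
theorem Lvl.μΛ : μ < Λ := (hl.μρ hunb).trans_lt hl.lt

include hΛ hunb in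
/-- Strong submodels of size `Λ` are presented by EM models. -/
theorem exists_pres (hK : K.IsLS ℓ) {C : Type u} [L.Structure C] (M : L.Substructure C)
    (hM : K.le M) (hMc : #M = Λ) : ∃ (t : Tpl K ℓ) (I : Type u) (_ : LinearOrder I)
      (E : EM t I) (f : E.N ↪[L] C), Nonempty I ∧ K.Emb f ∧ range f = M ∧ #E.N = Λ := by
  obtain ⟨t⟩ := exists_tpl' hK hunb
  obtain ⟨E⟩ := exists_em t Λ.ord.ToType
  have hc : #Λ.ord.ToType = Λ := by rw [mk_toType, card_ord]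
  have hE : #E.N = Λ := E.card_eq hΛ.pt.lt.le hc
  obtain ⟨e⟩ := hΛ.pt.cat.2 E.N M E.mem (K.mem_of_le _ hM).1 hE hMc
  refine ⟨t, _, inferInstance, E, M.subtype.comp e.toEmbedding, ?_, ?_, ?_, hE⟩
  · rw [← mk_ne_zero_iff, hc]
    exact (aleph0_pos.trans_le (hK.1.trans hΛ.pt.lt.le)).ne'
  · exact AEC.Emb.comp (AEC.emb_subtype.2 hM) (AEC.Emb.of_equiv e E.mem)
  · ext x
    constructor
    · rintro ⟨y, rfl⟩
      exact (e y).2
    · intro hx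
      obtain ⟨y, hy⟩ := e.surjective ⟨x, hx⟩
      exact ⟨y, congrArg Subtype.val hy⟩

variable {C : Type u} [L.Structure C]

section

include hΛ hK hunb hl

/-- Coheirs are independent. -/
theorem ind_of_coh (M : L.Substructure C) (hM : K.le M) (hMc : #M = Λ) {ι : Type u}
    (hι : #ι ≤ μ) (r : ι → C) {D B : Set C} (hDB : D ∪ B ⊆ M)
    (h : Coh L μ (limB κf μ) r D B) : Ind L κf μ D B r := by
  obtain ⟨t, I, _, E, f, h1, h2, h3, h4⟩ := exists_pres hΛ hunb hK M hM hMc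
  obtain ⟨a, -, h5, h6⟩ := exists_conv hK hunb hl.hℓμ h1 E (hl.thr''.trans h4.ge) f h2 hι r
    (fun x hx => by
      have h7 : x ∈ range f := by
        rw [h3]
        exact hDB hx
      exact h7) h
  exact ⟨fun x i => f (a x i), h5, h6⟩

theorem ind_empty (M : L.Substructure C) (hM : K.le M) (hMc : #M = Λ) {ι : Type u}
    (hι : #ι ≤ μ) (r : ι → C) {D : Set C} (hDM : D ⊆ M) (hD : Refl L ρ D) :
    Ind L κf μ D ∅ r := by
  refine ind_of_coh hΛ hK hunb hl M hM hMc hι r (by simpa using hDM) ?_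
  exact coh_of_refl (hl.hμ hK) ((le_opB hunb μ).trans (opB_le_limB κf μ))
    (hD.mono hl.limB ((hl.hμ hK).trans ((le_opB hunb μ).trans (opB_le_limB κf μ)))) hι r

/-- Free extensions. -/
theorem exists_free (hs : Sat K Λ C) (M : L.Substructure C) (hM : K.le M) (hMc : #M = Λ)
    {ι : Type u} (hι : #ι ≤ μ) (r : ι → C) {D : Set C} (hDM : D ⊆ M) (hD : Refl L ρ D) :
    ∃ r' : ι → C, Ind L κf μ D M r' ∧ ∀ (ζ : Type u) (y : ζ → C), #ζ ≤ μ → (∀ z, y z ∈ D) →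
      EqS L μ (Sum.elim y r') (Sum.elim y r) := by
  obtain ⟨t, I, _, E, f, h1, h2, h3, h4⟩ := exists_pres hΛ hunb hK M hM hMc
  have hco : Coh L μ (limB κf μ) r D ∅ :=
    coh_of_refl (hl.hμ hK) ((le_opB hunb μ).trans (opB_le_limB κf μ))
      (hD.mono hl.limB ((hl.hμ hK).trans ((le_opB hunb μ).trans (opB_le_limB κf μ)))) hι r
  obtain ⟨a, ha, h5, h6⟩ := exists_conv hK hunb hl.hℓμ h1 E (hl.thr''.trans h4.ge) f h2 hι r
    (fun x hx => by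
      have h7 : x ∈ range f := by
        rw [h3]
        rw [union_empty] at hx
        exact hDM hx
      exact h7) hco
  obtain ⟨r', h7⟩ := exists_limit_sat hK hunb hΛ.pt.lt.le hs h1 E h4 f h2 (ν₀ := μ)
    ((dir_opB hK hunb hl.hℓμ).mono (le_opB hunb μ)) (hι.trans (hl.μΛ hunb).le) ha
  have h8 := h7 μ le_rfl hl.hℓμ hl.thr' hι
  rw [h3] at h8
  refine ⟨r', ⟨fun x i => f (a x i), h5, ?_⟩, fun ζ y hζ hy => ?_⟩
  · rwa [union_eq_self_of_subset_left hDM]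
  · obtain ⟨x₁, hx₁⟩ := h6 ζ y hζ fun z => Or.inl (hy z)
    obtain ⟨x₂, hx₂⟩ := h8 ζ y hζ fun z => hDM (hy z)
    exact (hx₂ _ (le_max_right x₁ x₂)).symm.trans (hx₁ _ (le_max_left x₁ x₂))

/-- Conjugacy of tuples with the same type at the level `μ`. -/
theorem exists_aut (hCm : K.mem C) (hs : Sat K Λ C) (hCc : #C = Order.succ Λ)
    (M : L.Substructure C) (hM : K.le M) (hMc : #M = Λ) {ι : Type u} (hι : #ι ≤ ν)
    (r s : ι → C) (hrs : ∀ (ζ : Type u) (y : ζ → C), #ζ ≤ μ → (∀ z, y z ∈ M) →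
      EqS L μ (Sum.elim y r) (Sum.elim y s)) :
    ∃ g : C ≃[L] C, (∀ x ∈ M, g x = x) ∧ ∀ i, g (r i) = s i := by
  have hνt : ν ≤ tB α ν := hΛ.le_tb ν hl.hℓ
  have h0 : ℵ₀ ≤ tB α ν := (hK.1.trans hl.hℓ).trans hνt
  exact exists_aut_over hΛ hK hunb hCm hs hCc M hM hMc hl.hℓ
    ((hl.νμ).trans_lt (hl.μΛ hunb)) hι r s fun Q a hQ ha =>
    (hrs Q a (hQ.trans hl.tB) ha).mono h0 hl.tB (mk_sum_le' h0 hQ (hι.trans hνt))

theorem le_card_sat (hCc : #C = Order.succ Λ) : opB κf μ ≤ #C := by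
  rw [hCc]
  exact (((Order.le_succ _).trans hl.opB).trans hl.lt.le).trans (Order.le_succ _)

theorem refl_big (M : L.Substructure C) (hM : K.le M) (hMc : #M = Λ) :
    Refl L ρ (M : Set C) :=
  refl_of_le hK hunb (hl.hℓμ.trans (hl.μρ hunb)) hM (hl.thr.trans hMc.ge)

/-- A free tuple stays free over some larger model which contains given elements. -/
theorem exists_free_model (hCm : K.mem C) (hs : Sat K Λ C) (hCc : #C = Order.succ Λ)
    (M : L.Substructure C) (hM : K.le M) (hMc : #M = Λ) (N₀ : L.Substructure C) (hN₀ : K.le N₀)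
    (hN₀c : #N₀ = Λ) (hMN₀ : M ≤ N₀) {κ ζ : Type u} (hκζ : #(ζ ⊕ κ) ≤ ν) (hζ : #ζ ≤ ν)
    (hκ : #κ ≤ ν) (v : κ → C) (g : ζ → C) (hg : ∀ z, g z ∈ N₀) {D : Set C} (hDM : D ⊆ M)
    (hD : Refl L ρ D) (h : Ind L κf μ D (range g ∪ M) v) :
    ∃ σ : C ≃[L] C, (∀ x ∈ M, σ x = x) ∧ (∀ z, σ (g z) = g z) ∧
      Ind L κf μ D (N₀.map σ.toHom : L.Substructure C) v := by
  have hμ := hl.hμ hK
  obtain ⟨v', h1, h2⟩ := exists_free hΛ hK hunb hl hs N₀ hN₀ hN₀c (hκ.trans hl.νμ) v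
    (hDM.trans hMN₀) hD
  have h3 : Ind L κf μ D (range g ∪ M) v' := h1.mono (by
    refine union_subset ?_ ?_
    · rintro _ ⟨z, rfl⟩
      exact Or.inr (hg z)
    · exact fun x hx => Or.inr (hMN₀ hx))
  obtain ⟨σ, h4, h5⟩ := exists_aut hΛ hK hunb hl hCm hs hCc M hM hMc hκζ (Sum.elim g v')
    (Sum.elim g v) (by
    intro ξ y hξ hy
    have h6 := Ind.uniq hμ (hl.μρ hunb) hl.opB (hκ.trans hl.νμ) hD h3 h h2
      (ζ := ξ ⊕ ζ) (mk_sum_le' hμ hξ (hζ.trans hl.νμ)) (Sum.elim y g) (by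
        rintro (k | z)
        · exact Or.inr (Or.inr (hy k))
        · exact Or.inr (Or.inl ⟨z, rfl⟩))
    refine h6.subset ?_
    rintro _ ⟨k | z | i, rfl⟩
    · exact ⟨Sum.inl (Sum.inl k), rfl⟩
    · exact ⟨Sum.inl (Sum.inr z), rfl⟩
    · exact ⟨Sum.inr i, rfl⟩)
  refine ⟨σ, h4, fun z => h5 (Sum.inl z), ?_⟩
  have h6 := h1.equiv hμ (hκ.trans hl.νμ) σ
  have h7 : σ '' D = D := by
    ext x
    constructor
    · rintro ⟨y, hy, rfl⟩
      rw [h4 y (hDM hy)]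
      exact hy
    · intro hx
      exact ⟨x, hx, h4 x (hDM hx)⟩
  have h8 : (fun i => σ (v' i)) = v := funext fun i => h5 (Sum.inr i)
  rw [h7, h8] at h6
  exact h6

/-- **Descent of domination.** -/
theorem descent (hCm : K.mem C) (hs : Sat K Λ C) (hCc : #C = Order.succ Λ)
    (M : L.Substructure C) (hM : K.le M) (hMc : #M = Λ) {D A₀ R : Set C} (hDM : D ⊆ M)
    (hAD : A₀ ⊆ D) (hD : Refl L ρ D) {κ : Type u} (hκ : #κ ≤ ν) (v : κ → C)
    (hv : Ind L κf μ A₀ M v) (hvR : ∀ i, v i ∈ R)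
    (h1 : ∀ M' : L.Substructure C, K.le M' → #M' = Λ → M ≤ M' → Ind L κf μ A₀ M' v →
      ∀ (ι : Type u) (r : ι → C), #ι ≤ ν → (∀ i, r i ∈ R) → Ind L κf μ M M' r)
    (h2 : ∀ (ι : Type u) (r : ι → C), #ι ≤ ν → (∀ i, r i ∈ R) → Ind L κf μ D M r)
    {ζ ι : Type u} (hζ : #ζ ≤ ν) (hι : #ι ≤ ν) (g : ζ → C) (hg : Ind L κf μ D (range g) v)
    (r : ι → C) (hr : ∀ i, r i ∈ R) : Ind L κf μ D (range g) r := by
  classical
  have hμ := hl.hμ hK
  have hν : ℵ₀ ≤ ν := hK.1.trans hl.hℓ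
  have hζμ := hζ.trans hl.νμ
  have hιμ := hι.trans hl.νμ
  have hκμ := hκ.trans hl.νμ
  have hCκ : opB κf μ ≤ #C := le_card_sat hΛ hK hunb hl hCc
  have hc2 : #(ι ⊕ κ) ≤ ν := mk_sum_le' hν hι hκ
  have hc3 : #(ζ ⊕ (ι ⊕ κ)) ≤ ν := mk_sum_le' hν hζ hc2
  -- the free copy
  obtain ⟨q₁, hq₁, hq₁'⟩ := exists_free hΛ hK hunb hl hs M hM hMc (hc3.trans hl.νμ)
    (Sum.elim g (Sum.elim r v)) hDM hD
  obtain ⟨σ, hσ, hσ'⟩ := exists_aut hΛ hK hunb hl hCm hs hCc M hM hMc hc2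
    (fun i => q₁ (Sum.inr i)) (Sum.elim r v) (by
    intro ξ y hξ hy
    refine Ind.uniq hμ (hl.μρ hunb) hl.opB (hc2.trans hl.νμ) hD (hq₁.comp Sum.inr)
      (h2 _ (Sum.elim r v) hc2 (by
        rintro (i | i)
        · exact hr i
        · exact hvR i)) ?_ hξ y fun z => Or.inr (hy z)
    intro ξ y hξ hy
    have h3 := hq₁' ξ y hξ hy
    refine h3.subset ?_
    rintro _ ⟨k | i, rfl⟩
    · exact ⟨Sum.inl k, rfl⟩
    · exact ⟨Sum.inr (Sum.inr i), rfl⟩)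
  let g' : ζ → C := fun z => σ (q₁ (Sum.inl z))
  have hq' : (fun i => σ (q₁ i)) = Sum.elim g' (Sum.elim r v) := by
    funext i
    rcases i with i | i
    · rfl
    · exact hσ' i
  have himg : ∀ X : Set C, X ⊆ M → σ '' X = X := by
    intro X hX
    ext x
    constructor
    · rintro ⟨y, hy, rfl⟩
      rw [hσ y (hX hy)]
      exact hy
    · intro hx
      exact ⟨x, hx, hσ x (hX hx)⟩
  have h3 : Ind L κf μ D M (Sum.elim g' (Sum.elim r v)) := by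
    have h4 := hq₁.equiv hμ (hc3.trans hl.νμ) σ
    rw [himg D hDM, himg M Subset.rfl, hq'] at h4
    exact h4
  have h4 : ∀ (ξ : Type u) (y : ξ → C), #ξ ≤ μ → (∀ z, y z ∈ D) →
      EqS L μ (Sum.elim y (Sum.elim g' (Sum.elim r v)))
        (Sum.elim y (Sum.elim g (Sum.elim r v))) := by
    intro ξ y hξ hy
    have h5 := EqS.equiv hμ (mk_sum_le' hμ hξ (hc3.trans hl.νμ)) σ (Sum.elim y q₁)
    refine EqS.trans (EqS.symm (h5.subset ?_)) (hq₁' ξ y hξ hy)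
    rintro _ ⟨k | i, rfl⟩
    · exact ⟨Sum.inl k, Prod.ext rfl (hσ _ (hDM (hy k)))⟩
    · exact ⟨Sum.inr i, Prod.ext rfl (congrFun hq' i)⟩
  have h4v : ∀ (ξ : Type u) (y : ξ → C), #ξ ≤ μ → (∀ z, y z ∈ D) →
      EqS L μ (Sum.elim y (Sum.elim g' v)) (Sum.elim y (Sum.elim g v)) := by
    intro ξ y hξ hy
    refine (h4 ξ y hξ hy).subset ?_
    rintro _ ⟨k | z | i, rfl⟩
    · exact ⟨Sum.inl k, rfl⟩
    · exact ⟨Sum.inr (Sum.inl z), rfl⟩
    · exact ⟨Sum.inr (Sum.inr (Sum.inr i)), rfl⟩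
  have h4r : ∀ (ξ : Type u) (y : ξ → C), #ξ ≤ μ → (∀ z, y z ∈ D) →
      EqS L μ (Sum.elim y (Sum.elim g' r)) (Sum.elim y (Sum.elim g r)) := by
    intro ξ y hξ hy
    refine (h4 ξ y hξ hy).subset ?_
    rintro _ ⟨k | z | i, rfl⟩
    · exact ⟨Sum.inl k, rfl⟩
    · exact ⟨Sum.inr (Sum.inl z), rfl⟩
    · exact ⟨Sum.inr (Sum.inr (Sum.inl i)), rfl⟩
  have h5 : Ind L κf μ D (range g') v :=
    hg.transfer hμ hκμ hζμ fun ξ y hξ hy => (h4v ξ y hξ hy).symm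
  -- independence of `v` from `g' ∪ M`
  have h6 : ∀ (ξ : Type u) (m : ξ → C), #ξ ≤ μ → (∀ z, m z ∈ M) →
      Ind L κf μ D (range g' ∪ range m) v := by
    intro ξ m hξ hm
    refine Ind.pairs hK hunb hl.hℓμ hCm hCκ hκμ hξ h5 ?_
    have h7 : Ind L κf μ D (range m) (Sum.elim g' v) := by
      have h8 := (h3.comp (ζ := ζ ⊕ κ) (Sum.elim Sum.inl fun i => Sum.inr (Sum.inr i))).mono
        (B' := range m) (by
          rintro _ ⟨z, rfl⟩
          exact Or.inr (hm z))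
      have h9 : (fun z => Sum.elim g' (Sum.elim r v) ((Sum.elim Sum.inl fun i =>
          Sum.inr (Sum.inr i) : ζ ⊕ κ → ζ ⊕ (ι ⊕ κ)) z)) = Sum.elim g' v := by
        funext z
        rcases z with z | z <;> rfl
      rw [h9] at h8
      exact h8
    have h8 := Ind.symm hK hunb hl.hℓμ hCm hCκ hξ (mk_sum_le' hμ hζμ hκμ)
      (ind_empty hΛ hK hunb hl M hM hMc hξ m hDM hD) h7
    rwa [Sum.elim_range] at h8
  have h7 : Ind L κf μ D (range g' ∪ M) v := by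
    refine Ind.of_small hμ (hl.μρ hunb) hl.opB hκμ hD
      (ind_empty hΛ hK hunb hl M hM hMc hκμ v hDM hD) fun ξ m hξ hm => ?_
    refine (h6 {z // m z ∈ M} (fun z => m z) ((mk_subtype_le _).trans hξ) fun z => z.2).mono ?_
    rintro _ ⟨z, rfl⟩
    rcases hm z with h8 | h8
    · exact Or.inr (Or.inl h8)
    · exact Or.inr (Or.inr ⟨⟨z, h8⟩, rfl⟩)
  -- a large model free from `v`
  have hΛ0 : ℵ₀ ≤ Λ := hK.1.trans hΛ.pt.lt.le
  have hνΛ : ν ≤ Λ := (hl.νμ.trans (hl.μΛ hunb).le)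
  obtain ⟨N₀, hN₀, hN₀A, hN₀c⟩ := exists_sub_card hK hΛ.pt.lt.le hCm
    ((Order.le_succ Λ).trans hCc.ge) ((M : Set C) ∪ range g')
    ((mk_union_le _ _).trans (add_le_of_le hΛ0 hMc.le (mk_range_le.trans (hζ.trans hνΛ))))
  obtain ⟨τ, hτ1, hτ2, hτ3⟩ := exists_free_model hΛ hK hunb hl hCm hs hCc M hM hMc N₀ hN₀ hN₀c
    (fun x hx => hN₀A (Or.inl hx)) (mk_sum_le' hν hζ hκ) hζ hκ v g'
    (fun z => hN₀A (Or.inr ⟨z, rfl⟩)) hDM hD h7
  let N' : L.Substructure C := N₀.map τ.toHom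
  have hN' : K.le N' := K.le_iso τ N₀ hN₀
  have hN'c : #N' = Λ := by
    rw [← hN₀c]
    exact mk_image_eq (s := (N₀ : Set C)) τ.injective
  have hMN' : M ≤ N' := by
    intro x hx
    exact ⟨x, hN₀A (Or.inl hx), hτ1 x hx⟩
  have hgN' : ∀ z, g' z ∈ N' := fun z => ⟨g' z, hN₀A (Or.inr ⟨z, rfl⟩), hτ2 z⟩
  have hMr := refl_big hΛ hK hunb hl M hM hMc
  have h8 : Ind L κf μ A₀ N' v := by
    have h9 : Ind L κf μ M N' v := hτ3.base hDM fun x hx => Or.inr (hMN' hx)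
    exact (hv.trans hμ (hl.μρ hunb) hl.opB hκμ hMr (hAD.trans hDM) h9).mono fun x hx =>
      Or.inr (Or.inr hx)
  have h9 := h1 N' hN' hN'c hMN' h8 ι r hι hr
  have h10 : Ind L κf μ D (M ∪ N') r :=
    (h2 ι r hι hr).trans hμ (hl.μρ hunb) hl.opB hιμ hMr hDM h9
  have h11 : Ind L κf μ D (range g') r := h10.mono (by
    rintro _ ⟨z, rfl⟩
    exact Or.inr (Or.inr (hgN' z)))
  exact h11.transfer hμ hιμ hζμ h4r

end

end Vale.Agent.P307.R2.H804
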