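import Vale.Agent.P307.R2.H1.Avg

/-!
Independence by convergent sequences, at one level.
-/

set_option linter.unusedSectionVars false

universe u v w

open FirstOrder Cardinal Set

namespace Vale.Agent.P307.R2.H804

open Vale.Agent.P307 Vale.Agent.P307.H304 Vale.Agent.P307.R2.H287 Vale.Agent.P307.R2.H1
  Language.Structure Language.Substructure

variable {L : Language.{u, u}} {K : AEC L} {ℓ : Cardinal.{u}} {κf : Cardinal.{u} → Cardinal.{u}}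

section defs

variable {N : Type u} [L.Structure N]

variable (L) in
/-- Small tuples are realized in `D` over small tuples of `D`. -/
def Refl (ρ : Cardinal.{u}) (D : Set N) : Prop :=
  ∀ (P ζ : Type u), #P ≤ ρ → #ζ ≤ ρ → ∀ a : P → N, (∀ p, a p ∈ D) → ∀ y : ζ → N,
    ∃ y' : ζ → N, (∀ z, y' z ∈ D) ∧ EqS L ρ (Sum.elim a y') (Sum.elim a y)

variable (L) in
/-- The sequence `a` converges to `r` over `B`, at level `ν`. -/
def Conv (ν : Cardinal.{u}) {X ι : Type u} [LinearOrder X] (a : X → ι → N) (r : ι → N)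
    (B : Set N) : Prop :=
  ∀ (ζ : Type u) (y : ζ → N), #ζ ≤ ν → (∀ z, y z ∈ B) →
    ∃ x₀, ∀ x, x₀ ≤ x → EqS L ν (Sum.elim y (a x)) (Sum.elim y r)

theorem EqS.refl' {ν : Cardinal.{u}} (hν : ℵ₀ ≤ ν) {ι : Type u} (hι : #ι ≤ ν) (a : ι → N) :
    EqS L ν a a := by
  have h1 := good_gr_equiv (ν := ν) hν (Language.Equiv.refl L N) (A := range a)
    (mk_range_le.trans hι)
  refine h1.subset ?_
  rintro _ ⟨i, rfl⟩
  exact mem_gr.2 ⟨⟨i, rfl⟩, rfl⟩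

theorem EqS.equiv {M : Type u} [L.Structure M] {ν : Cardinal.{u}} (hν : ℵ₀ ≤ ν) {ι : Type u}
    (hι : #ι ≤ ν) (e : N ≃[L] M) (a : ι → N) : EqS L ν a (fun i => e (a i)) := by
  have h1 := good_gr_equiv (ν := ν) hν e (A := range a) (mk_range_le.trans hι)
  refine h1.subset ?_
  rintro _ ⟨i, rfl⟩
  exact mem_gr.2 ⟨⟨i, rfl⟩, rfl⟩

/-- Strong substructures are reflecting. -/
theorem refl_of_le (hK : K.IsLS ℓ) (hunb : ∀ ν, ν < κf ν ∧ K.CategoricalIn (κf ν))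
    {ρ : Cardinal.{u}} (hℓ : ℓ ≤ ρ) {D : L.Substructure N} (hD : K.le D) (hc : thr κf ρ ≤ #D) :
    Refl L ρ (D : Set N) := by
  intro P ζ hP hζ a ha y
  let a' : P → D := fun p => ⟨a p, ha p⟩
  have h1 : EqS L ρ a' a := EqS.map_emb hK hunb hℓ D.subtype (AEC.emb_subtype.2 hD) hc hP a'
  obtain ⟨y', hy'⟩ := EqS.exists_ext h1.symm hζ y
  refine ⟨fun z => y' z, fun z => (y' z).2, ?_⟩
  have hPζ : #(P ⊕ ζ) ≤ ρ := by
    rw [mk_sum, lift_id, lift_id]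
    exact add_le_of_le (hK.1.trans hℓ) hP hζ
  have h2 := EqS.map_emb hK hunb hℓ D.subtype (AEC.emb_subtype.2 hD) hc hPζ (Sum.elim a' y')
  have h3 : (fun i => D.subtype (Sum.elim a' y' i)) = Sum.elim a fun z => (y' z : N) := by
    funext i
    rcases i with i | i <;> rfl
  rw [h3] at h2
  exact (hy'.trans h2).symm

theorem Refl.mono {ρ ρ' : Cardinal.{u}} {D : Set N} (h : Refl L ρ D) (hρ : ρ' ≤ ρ)
    (hρ' : ℵ₀ ≤ ρ') : Refl L ρ' D := by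
  intro P ζ hP hζ a ha y
  obtain ⟨y', h1, h2⟩ := h P ζ (hP.trans hρ) (hζ.trans hρ) a ha y
  refine ⟨y', h1, h2.mono hρ' hρ ?_⟩
  rw [mk_sum, lift_id, lift_id]
  exact add_le_of_le hρ' hP hζ

theorem Conv.mono {ν : Cardinal.{u}} {X ι : Type u} [LinearOrder X] {a : X → ι → N} {r : ι → N}
    {B B' : Set N} (h : Conv L ν a r B) (hB : B' ⊆ B) : Conv L ν a r B' :=
  fun ζ y hζ hy => h ζ y hζ fun z => hB (hy z)

theorem Conv.comp {ν : Cardinal.{u}} {X ι ι' : Type u} [LinearOrder X] {a : X → ι → N}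
    {r : ι → N} {B : Set N} (h : Conv L ν a r B) (f : ι' → ι) :
    Conv L ν (fun x i => a x (f i)) (fun i => r (f i)) B := by
  intro ζ y hζ hy
  obtain ⟨x₀, hx₀⟩ := h ζ y hζ hy
  refine ⟨x₀, fun x hx => ?_⟩
  have h1 := EqS.comp (hx₀ x hx) (Sum.map id f)
  refine h1.subset ?_
  rintro _ ⟨z | i, rfl⟩
  · exact ⟨Sum.inl z, rfl⟩
  · exact ⟨Sum.inr i, rfl⟩

theorem Conv.level {ν ν' : Cardinal.{u}} (hν : ℵ₀ ≤ ν) (hνν' : ν ≤ ν') {X ι : Type u}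
    [LinearOrder X] (hι : #ι ≤ ν) {a : X → ι → N} {r : ι → N} {B : Set N}
    (h : Conv L ν' a r B) : Conv L ν a r B := by
  intro ζ y hζ hy
  obtain ⟨x₀, hx₀⟩ := h ζ y (hζ.trans hνν') hy
  refine ⟨x₀, fun x hx => (hx₀ x hx).mono hν hνν' ?_⟩
  rw [mk_sum, lift_id, lift_id]
  exact add_le_of_le hν hζ hι

/-- Transport by an automorphism. -/
theorem Conv.equiv {M : Type u} [L.Structure M] {ν : Cardinal.{u}} (hν : ℵ₀ ≤ ν) {X ι : Type u}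
    [LinearOrder X] (hι : #ι ≤ ν) {a : X → ι → N} {r : ι → N} {B : Set N} (h : Conv L ν a r B)
    (e : N ≃[L] M) : Conv L ν (fun x i => e (a x i)) (fun i => e (r i)) (e '' B) := by
  intro ζ y hζ hy
  choose y' hy' hy'' using hy
  obtain ⟨x₀, hx₀⟩ := h ζ y' hζ hy'
  refine ⟨x₀, fun x hx => ?_⟩
  have hc : #(ζ ⊕ ι) ≤ ν := by
    rw [mk_sum, lift_id, lift_id]
    exact add_le_of_le hν hζ hι
  have h1 := EqS.equiv hν hc e (Sum.elim y' (a x))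
  have h2 := EqS.equiv hν hc e (Sum.elim y' r)
  have h3 := (h1.symm.trans (hx₀ x hx)).trans h2
  refine h3.subset ?_
  rintro _ ⟨z | i, rfl⟩
  · exact ⟨Sum.inl z, by simp [hy'']⟩
  · exact ⟨Sum.inr i, rfl⟩

/-- Convergence depends only on the type over the base. -/
theorem Conv.congr {ν : Cardinal.{u}} {X ι : Type u} [LinearOrder X] {a : X → ι → N}
    {r r' : ι → N} {B : Set N} (h : Conv L ν a r B)
    (hr : ∀ (ζ : Type u) (y : ζ → N), #ζ ≤ ν → (∀ z, y z ∈ B) →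
      EqS L ν (Sum.elim y r) (Sum.elim y r')) : Conv L ν a r' B := by
  intro ζ y hζ hy
  obtain ⟨x₀, hx₀⟩ := h ζ y hζ hy
  exact ⟨x₀, fun x hx => (hx₀ x hx).trans (hr ζ y hζ hy)⟩

/-- All sequences in a base which converge over the base have the same limit. -/
theorem Conv.key {ν ρ : Cardinal.{u}} (hν : ℵ₀ ≤ ν) (hνρ : ν ≤ ρ) {X X' ι : Type u}
    [LinearOrder X] [LinearOrder X'] (hι : #ι ≤ ν) (hX : #X ≤ ρ) (hX' : #X' ≤ ρ)
    {a : X → ι → N} {a' : X' → ι → N} {r : ι → N} {D B : Set N} (hD : Refl L ρ D)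
    (ha : ∀ x i, a x i ∈ D) (ha' : ∀ x i, a' x i ∈ D) (h : Conv L ν a r D)
    (h' : Conv L ν a' r (D ∪ B)) : Conv L ν a r (D ∪ B) := by
  have hρ : ℵ₀ ≤ ρ := hν.trans hνρ
  intro ζ y hζ hy
  let P : Type u := (X × ι) ⊕ (X' × ι)
  have hP : #P ≤ ρ := by
    change #(_ ⊕ _) ≤ ρ
    rw [mk_sum, lift_id, lift_id]
    exact add_le_of_le hρ (mk_prod_le hρ hX (hι.trans hνρ)) (mk_prod_le hρ hX' (hι.trans hνρ))
  obtain ⟨y', h1, h2⟩ := hD P ζ hP (hζ.trans hνρ)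
    (Sum.elim (fun p => a p.1 p.2) fun p => a' p.1 p.2) (by
      rintro (p | p)
      · exact ha _ _
      · exact ha' _ _) y
  have hc : #(ζ ⊕ ι) ≤ ν := by
    rw [mk_sum, lift_id, lift_id]
    exact add_le_of_le hν hζ hι
  have h3 : ∀ x, EqS L ν (Sum.elim y' (a x)) (Sum.elim y (a x)) := by
    intro x
    refine EqS.mono hν hνρ ?_ hc
    refine h2.subset ?_
    rintro _ ⟨z | i, rfl⟩
    · exact ⟨Sum.inr z, rfl⟩
    · exact ⟨Sum.inl (Sum.inl (x, i)), rfl⟩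
  have h3' : ∀ x, EqS L ν (Sum.elim y' (a' x)) (Sum.elim y (a' x)) := by
    intro x
    refine EqS.mono hν hνρ ?_ hc
    refine h2.subset ?_
    rintro _ ⟨z | i, rfl⟩
    · exact ⟨Sum.inr z, rfl⟩
    · exact ⟨Sum.inl (Sum.inr (x, i)), rfl⟩
  obtain ⟨x₀, hx₀⟩ := h ζ y' hζ h1
  obtain ⟨x₁, hx₁⟩ := h' ζ y' hζ fun z => Or.inl (h1 z)
  obtain ⟨x₂, hx₂⟩ := h' ζ y hζ hy
  have h4 : EqS L ν (Sum.elim y' r) (Sum.elim y r) :=
    ((hx₁ _ (le_max_left x₁ x₂)).symm.trans (h3' _)).trans (hx₂ _ (le_max_right x₁ x₂))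
  exact ⟨x₀, fun x hx => ((h3 x).symm.trans (hx₀ x hx)).trans h4⟩

/-- Uniqueness of independent extensions. -/
theorem Conv.uniq {ν ρ : Cardinal.{u}} (hν : ℵ₀ ≤ ν) (hνρ : ν ≤ ρ) {X X' ι : Type u}
    [LinearOrder X] [LinearOrder X'] (hι : #ι ≤ ν) (hX : #X ≤ ρ) (hX' : #X' ≤ ρ)
    {a : X → ι → N} {a' : X' → ι → N} {r r' : ι → N} {D B : Set N} (hD : Refl L ρ D)
    (ha : ∀ x i, a x i ∈ D) (ha' : ∀ x i, a' x i ∈ D) (h : Conv L ν a r (D ∪ B))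
    (h' : Conv L ν a' r' (D ∪ B))
    (hr : ∀ (ζ : Type u) (y : ζ → N), #ζ ≤ ν → (∀ z, y z ∈ D) →
      EqS L ν (Sum.elim y r) (Sum.elim y r')) {ζ : Type u} (hζ : #ζ ≤ ν) (y : ζ → N)
    (hy : ∀ z, y z ∈ D ∪ B) : EqS L ν (Sum.elim y r) (Sum.elim y r') := by
  have h1 : Conv L ν a r' D := (h.mono subset_union_left).congr hr
  have h2 := Conv.key hν hνρ hι hX hX' hD ha ha' h1 h'
  obtain ⟨x₁, hx₁⟩ := h ζ y hζ hy
  obtain ⟨x₂, hx₂⟩ := h2 ζ y hζ hy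
  exact (hx₁ _ (le_max_left x₁ x₂)).symm.trans (hx₂ _ (le_max_right x₁ x₂))

/-- Symmetry, over a set of parameters. -/
theorem Conv.symm (hK : K.IsLS ℓ) (hunb : ∀ ν, ν < κf ν ∧ K.CategoricalIn (κf ν))
    {ν : Cardinal.{u}} (hℓ : ℓ ≤ ν) (hN : K.mem N) (hNκ : opB κf ν ≤ #N) {X Y ι ζ : Type u}
    [LinearOrder X] [LinearOrder Y] (hX : Dir (opB κf ν) X) (hY : Dir (opB κf ν) Y)
    (hι : #ι ≤ ν) (hζ : #ζ ≤ ν) {a : X → ι → N} {c : Y → ζ → N} {v : ι → N} {m : ζ → N}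
    {D G : Set N} (ha : ∀ x i, a x i ∈ D) (hc : ∀ y z, c y z ∈ D) (h1 : Conv L ν a v (D ∪ G))
    (h2 : Conv L ν c m (D ∪ G ∪ range v)) : Conv L ν a v (D ∪ G ∪ range m) := by
  classical
  have hν : ℵ₀ ≤ ν := hK.1.trans hℓ
  intro ξ y hξ hy
  by_contra hcon
  push Not at hcon
  let ξ' : Type u := {k : ξ // y k ∈ D ∪ G}
  have hξ' : #ξ' ≤ ν := (mk_subtype_le _).trans hξ
  let e : ξ' → N := fun k => y k.1
  have he : ∀ k, e k ∈ D ∪ G := fun k => k.2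
  have hsum : ∀ {A B : Type u}, #A ≤ ν → #B ≤ ν → #(A ⊕ B) ≤ ν := by
    intro A B hA hB
    rw [mk_sum, lift_id, lift_id]
    exact add_le_of_le hν hA hB
  have hred : ∀ x, EqS L ν (Sum.elim (Sum.elim e m) (a x)) (Sum.elim (Sum.elim e m) v) →
      EqS L ν (Sum.elim y (a x)) (Sum.elim y v) := by
    intro x h
    refine h.subset ?_
    rintro _ ⟨k | i, rfl⟩
    · rcases hy k with h3 | ⟨z, hz⟩
      · exact ⟨Sum.inl (Sum.inl ⟨k, h3⟩), rfl⟩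
      · exact ⟨Sum.inl (Sum.inr z), by simp [hz]⟩
    · exact ⟨Sum.inr i, rfl⟩
  have hbad : ∀ x₀, ∃ x, x₀ ≤ x ∧
      ¬ EqS L ν (Sum.elim (Sum.elim e m) (a x)) (Sum.elim (Sum.elim e m) v) := by
    intro x₀
    obtain ⟨x, h3, h4⟩ := hcon x₀
    exact ⟨x, h3, fun h5 => h4 (hred x h5)⟩
  have hA : ∀ x, ∃ y₀, ∀ y, y₀ ≤ y → EqS L ν (Sum.elim (Sum.elim e (a x)) (c y))
      (Sum.elim (Sum.elim e (a x)) m) := by
    intro x
    refine h2 _ _ (hsum hξ' hι) ?_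
    rintro (k | i)
    · exact Or.inl (he k)
    · exact Or.inl (Or.inl (ha x i))
  obtain ⟨y₁, hy₁⟩ := h2 _ (Sum.elim e v) (hsum hξ' hι) (by
    rintro (k | i)
    · exact Or.inl (he k)
    · exact Or.inr ⟨i, rfl⟩)
  have hC : ∀ y, ∃ x₀, ∀ x, x₀ ≤ x → EqS L ν (Sum.elim (Sum.elim e (c y)) (a x))
      (Sum.elim (Sum.elim e (c y)) v) := by
    intro y
    refine h1 _ _ (hsum hξ' hζ) ?_
    rintro (k | i)
    · exact he k
    · exact Or.inl (hc y i)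
  choose fA hfA using hA
  choose fC hfC using hC
  let W : Type u := SuccTy (opB κf ν)
  have hopB : ℵ₀ ≤ opB κf ν := hν.trans (le_opB hunb ν)
  have hstep : ∀ s : Set (X × Y), #s ≤ opB κf ν → ∃ p : X × Y,
      ¬ EqS L ν (Sum.elim (Sum.elim e m) (a p.1)) (Sum.elim (Sum.elim e m) v) ∧
      y₁ ≤ p.2 ∧ ∀ q ∈ s, fC q.2 ≤ p.1 ∧ fA q.1 ≤ p.2 := by
    intro s hs
    obtain ⟨x₀, hx₀⟩ := hX ((fun q : X × Y => fC q.2) '' s) (mk_image_le.trans hs)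
    obtain ⟨y₀, hy₀⟩ := hY ((fun q : X × Y => fA q.1) '' s) (mk_image_le.trans hs)
    obtain ⟨x, hx, hxb⟩ := hbad x₀
    exact ⟨(x, max y₀ y₁), hxb, le_max_right _ _, fun q hq =>
      ⟨(hx₀ _ ⟨q, hq, rfl⟩).le.trans hx, (hy₀ _ ⟨q, hq, rfl⟩).le.trans (le_max_left _ _)⟩⟩
  choose F hF using hstep
  let f : W → X × Y := WellFounded.fix (r := (· < ·)) wellFounded_lt
    (fun w rec => F (range fun w' : Iio w => rec w'.1 w'.2)
      (mk_range_le.trans (mk_Iio_succTy w)))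
  have hf : ∀ w, f w = F (range fun w' : Iio w => f w'.1)
      (mk_range_le.trans (mk_Iio_succTy w)) := fun w => WellFounded.fix_eq _ _ w
  have hfb : ∀ w, ¬ EqS L ν (Sum.elim (Sum.elim e m) (a (f w).1))
      (Sum.elim (Sum.elim e m) v) := by
    intro w
    rw [hf w]
    exact (hF _ _).1
  have hfy : ∀ w, y₁ ≤ (f w).2 := by
    intro w
    rw [hf w]
    exact (hF _ _).2.1
  have hfl : ∀ w w', w' < w → fC (f w').2 ≤ (f w).1 ∧ fA (f w').1 ≤ (f w).2 := by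
    intro w w' h
    rw [hf w]
    exact (hF _ _).2.2 _ ⟨⟨w', h⟩, rfl⟩
  refine no_order hK hunb hℓ hN hNκ (X := W) ?_ (ι := ξ' ⊕ ζ) (ζ := ι) (hsum hξ' hζ) hι
    (fun w => Sum.elim e (c (f w).2)) (fun w => a (f w).1) (Sum.elim (Sum.elim e m) v) ?_ ?_
  · rw [mk_toType, card_ord]
    exact Order.le_succ _
  · intro w w' hww'
    have h3 := hfC (f w).2 (f w').1 (hfl w' w hww').1
    have h4 := hy₁ (f w).2 (hfy w)
    refine h3.trans (h4.subset ?_)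
    rintro _ ⟨(k | z) | i, rfl⟩
    · exact ⟨Sum.inl (Sum.inl k), rfl⟩
    · exact ⟨Sum.inr z, rfl⟩
    · exact ⟨Sum.inl (Sum.inr i), rfl⟩
  · intro w w' hww' h3
    have h4 := hfA (f w).1 (f w').2 (hfl w' w hww').2
    refine hfb w (EqS.trans ?_ h3)
    refine EqS.symm (h4.subset ?_)
    rintro _ ⟨(k | z) | i, rfl⟩
    · exact ⟨Sum.inl (Sum.inl k), rfl⟩
    · exact ⟨Sum.inr z, rfl⟩
    · exact ⟨Sum.inl (Sum.inr i), rfl⟩

end defs

end Vale.Agent.P307.R2.H804
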