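import Vale.Agent.P307.R2.H1.Pat

set_option linter.unusedSectionVars false

universe u v w

open FirstOrder Cardinal Set

namespace Vale.Agent.P307.R2.H804

open Vale.Agent.P307 Vale.Agent.P307.H304 Vale.Agent.P307.R2.H287 Vale.Agent.P307.R2.H1
  Language.Structure Language.Substructure

variable {L : Language.{u, u}} {K : AEC L} {ℓ : Cardinal.{u}} {κf : Cardinal.{u} → Cardinal.{u}}

/-- Small tuples in the closure of a set of values are given by terms in a small subset. -/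
theorem exists_cover_sub {L : Language.{u, u}} {N I : Type u} [L.Structure N] {c : I → N}
    {μ : Cardinal.{u}} (hμ : ℵ₀ ≤ μ) {W : Set I} {ι : Type u} (hι : #ι ≤ μ) (r : ι → N)
    (hr : ∀ i, r i ∈ closure L (c '' W)) :
    ∃ V : Set I, V ⊆ W ∧ #V ≤ μ ∧ ∃ s : ι → L.Term V, ∀ i,
      (s i).realize (fun v : V => c v) = r i := by
  classical
  have h1 : ∀ i, ∃ s : L.Term W, s.realize (fun v : W => c v) = r i := by
    intro i
    have h2 : c '' W = range fun v : W => c v := by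
      rw [image_eq_range]
    have h3 := hr i
    rw [h2] at h3
    exact Gr.mem_closure_range.1 h3
  choose s hs using h1
  let V : Set I := ⋃ i : ι, ((fun v : W => v.1) '' ((s i).varFinset : Set W))
  have hV : V ⊆ W := by
    intro x hx
    obtain ⟨i, y, -, rfl⟩ := mem_iUnion.1 hx
    exact y.2
  refine ⟨V, hV, ?_, ?_⟩
  · refine (mk_iUnion_le _).trans ?_
    calc _ ≤ μ * μ := by
          refine mul_le_mul' hι (ciSup_le' fun x => ?_)
          exact ((lt_aleph0_of_finite _).le).trans hμ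
      _ = μ := mul_eq_self hμ
  · refine ⟨fun i => (s i).restrictVar fun v => ⟨v.1.1, mem_iUnion.2 ⟨i, v.1, by simp, rfl⟩⟩,
      fun i => ?_⟩
    rw [← hs i]
    exact Language.Term.realize_restrictVar (v := fun v : V => c v) (fun v : W => c v) fun _ => rfl

/-- Moving a part of the support. -/
theorem shift_gen (hK : K.IsLS ℓ) (hunb : ∀ ν, ν < κf ν ∧ K.CategoricalIn (κf ν))
    {ν : Cardinal.{u}} (hℓ : ℓ ≤ ν) {t : Tpl K ℓ} {J : Type u} [LinearOrder J] (E : EM t J)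
    (hE : thr κf ν ≤ #E.N) {W₁ W₂ T : Set J}
    (hT : ∀ V₁ ⊆ W₁, #V₁ ≤ ν → ∀ V₂ ⊆ W₂, #V₂ ≤ ν → ∃ h : J → J, (∀ x ∈ V₁, h x ∈ T) ∧
      (∀ x ∈ V₂, h x = x) ∧ ∀ x ∈ V₁ ∪ V₂, ∀ y ∈ V₁ ∪ V₂, x < y → h x < h y)
    {ι ζ : Type u} (hι : #ι ≤ ν) (hζ : #ζ ≤ ν) (r : ι → E.N) (m : ζ → E.N)
    (hr : ∀ i, r i ∈ closure (exLang L t.Λ) (E.c '' W₁))
    (hm : ∀ z, m z ∈ closure (exLang L t.Λ) (E.c '' W₂)) :
    ∃ r' : ι → E.N, (∀ i, r' i ∈ closure (exLang L t.Λ) (E.c '' T)) ∧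
      EqS L ν (Sum.elim r' m) (Sum.elim r m) := by
  have hν : ℵ₀ ≤ ν := t.hν.trans hℓ
  obtain ⟨V₁, hV₁, hV₁ν, s₁, hs₁⟩ := exists_cover_sub hν hι r hr
  obtain ⟨V₂, hV₂, hV₂ν, s₂, hs₂⟩ := exists_cover_sub hν hζ m hm
  obtain ⟨h, hh1, hh2, hh3⟩ := hT V₁ hV₁ hV₁ν V₂ hV₂ hV₂ν
  refine ⟨fun i => (s₁ i).realize fun v : V₁ => E.c (h v), fun i => ?_, ?_⟩
  · exact Language.Term.realize_mem _ _ fun v => Language.Substructure.subset_closure
      ⟨h v, hh1 v.1 v.2, rfl⟩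
  · let Q : Type u := V₁ ⊕ V₂
    have hQ : #Q ≤ ν := by
      change #(_ ⊕ _) ≤ ν
      rw [mk_sum, lift_id, lift_id]
      exact add_le_of_le hν hV₁ν hV₂ν
    let w : Q → J := Sum.elim (fun v => v.1) fun v => v.1
    have hw : ∀ p, w p ∈ V₁ ∪ V₂ := by
      rintro (p | p)
      · exact Or.inl p.2
      · exact Or.inr p.2
    have hιζ : #(ι ⊕ ζ) ≤ ν := by
      rw [mk_sum, lift_id, lift_id]
      exact add_le_of_le hν hι hζ
    let tm : ι ⊕ ζ → (exLang L t.Λ).Term Q := Sum.elim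
      (fun i => (s₁ i).relabel Sum.inl) (fun z => (s₂ z).relabel Sum.inr)
    have h1 := eqS_pat hK hunb hℓ E E hE hE hQ (fun p => h (w p)) w (fun p q => by
      rcases lt_trichotomy (w p) (w q) with h4 | h4 | h4
      · exact iff_of_true (hh3 _ (hw p) _ (hw q) h4).le h4.le
      · exact iff_of_true (congrArg h h4).le h4.le
      · exact iff_of_false (hh3 _ (hw q) _ (hw p) h4).not_ge h4.not_ge) hιζ tm
    have h2 : (fun i => (tm i).realize fun p => E.c (h (w p))) =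
        Sum.elim (fun i => (s₁ i).realize fun v : V₁ => E.c (h v)) m := by
      funext i
      rcases i with i | z
      · change ((s₁ i).relabel Sum.inl).realize _ = _
        rw [Language.Term.realize_relabel]
        rfl
      · change ((s₂ z).relabel Sum.inr).realize _ = m z
        rw [Language.Term.realize_relabel, ← hs₂ z]
        congr 1
        funext v
        exact congrArg E.c (hh2 v.1 v.2)
    have h3 : (fun i => (tm i).realize fun p => E.c (w p)) = Sum.elim r m := by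
      funext i
      rcases i with i | z
      · change ((s₁ i).relabel Sum.inl).realize _ = r i
        rw [Language.Term.realize_relabel, ← hs₁ i]
        rfl
      · change ((s₂ z).relabel Sum.inr).realize _ = m z
        rw [Language.Term.realize_relabel, ← hs₂ z]
        rfl
    rw [h2, h3] at h1
    exact h1

/-- `EM(A + S + F)` is a coheir over `EM(A + F)` of `EM(W + F)`, if `W < S < F` and there is room
for the small subsets of `S` to the left of small subsets of `F`. -/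
theorem shift (hK : K.IsLS ℓ) (hunb : ∀ ν, ν < κf ν ∧ K.CategoricalIn (κf ν))
    {ν : Cardinal.{u}} (hℓ : ℓ ≤ ν) {t : Tpl K ℓ} {J : Type u} [LinearOrder J] (E : EM t J)
    (hE : thr κf ν ≤ #E.N) {A W S F : Set J} (hAW : A ⊆ W) (h1 : ∀ x ∈ W, ∀ s ∈ S, x < s)
    (h2 : ∀ x ∈ W, ∀ e ∈ F, x < e) (h3 : ∀ s ∈ S, ∀ e ∈ F, s < e)
    (room : ∀ B ⊆ S, #B ≤ ν → ∀ C ⊆ F, #C ≤ ν → ∃ g : B → J, StrictMono g ∧ (∀ b, g b ∈ F) ∧
      ∀ b, ∀ c ∈ C, g b < c)
    {ι ζ : Type u} (hι : #ι ≤ ν) (hζ : #ζ ≤ ν) (r : ι → E.N) (m : ζ → E.N)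
    (hr : ∀ i, r i ∈ closure (exLang L t.Λ) (E.c '' (A ∪ S ∪ F)))
    (hm : ∀ z, m z ∈ closure (exLang L t.Λ) (E.c '' (W ∪ F))) :
    ∃ r' : ι → E.N, (∀ i, r' i ∈ closure (exLang L t.Λ) (E.c '' (A ∪ F))) ∧
      EqS L ν (Sum.elim r' m) (Sum.elim r m) := by
  classical
  have hν : ℵ₀ ≤ ν := t.hν.trans hℓ
  refine shift_gen hK hunb hℓ E hE (W₁ := A ∪ S ∪ F) (W₂ := W ∪ F) (T := A ∪ F) ?_ hι hζ r m hr hm
  intro V₁ hV₁ hV₁ν V₂ hV₂ hV₂ν
  obtain ⟨g, hg, hgF, hgC⟩ := room (V₁ ∩ S) inter_subset_right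
    ((mk_le_mk_of_subset inter_subset_left).trans hV₁ν) ((V₁ ∪ V₂) ∩ F) inter_subset_right
    ((mk_le_mk_of_subset inter_subset_left).trans ((mk_union_le _ _).trans
      (add_le_of_le hν hV₁ν hV₂ν)))
  have hcl : ∀ x ∈ V₁ ∪ V₂, (x ∈ V₁ ∩ S) ∨ (x ∈ W ∧ x ∉ V₁ ∩ S) ∨ (x ∈ F ∧ x ∉ V₁ ∩ S) := by
    intro x hx
    rcases hx with hx | hx
    · rcases hV₁ hx with (h4 | h4) | h4
      · exact Or.inr (Or.inl ⟨hAW h4, fun h5 => lt_irrefl _ (h1 x (hAW h4) x h5.2)⟩)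
      · exact Or.inl ⟨hx, h4⟩
      · exact Or.inr (Or.inr ⟨h4, fun h5 => lt_irrefl _ (h3 x h5.2 x h4)⟩)
    · rcases hV₂ hx with h4 | h4
      · exact Or.inr (Or.inl ⟨h4, fun h5 => lt_irrefl _ (h1 x h4 x h5.2)⟩)
      · exact Or.inr (Or.inr ⟨h4, fun h5 => lt_irrefl _ (h3 x h5.2 x h4)⟩)
  refine ⟨fun x => if hx : x ∈ V₁ ∩ S then g ⟨x, hx⟩ else x, fun x hx => ?_, fun x hx => ?_, ?_⟩
  · by_cases h4 : x ∈ V₁ ∩ S
    · dsimp only
      rw [dif_pos h4]
      exact Or.inr (hgF _)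
    · dsimp only
      rw [dif_neg h4]
      rcases hV₁ hx with (h5 | h5) | h5
      · exact Or.inl h5
      · exact absurd ⟨hx, h5⟩ h4
      · exact Or.inr h5
  · refine dif_neg fun h4 => ?_
    rcases hV₂ hx with h5 | h5
    · exact lt_irrefl _ (h1 x h5 x h4.2)
    · exact lt_irrefl _ (h3 x h4.2 x h5)
  · intro x hx y hy hxy
    dsimp only
    rcases hcl x hx with h4 | h4 | h4
    · rw [dif_pos h4]
      rcases hcl y hy with h5 | h5 | h5
      · rw [dif_pos h5]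
        exact hg hxy
      · exact absurd (h1 y h5.1 x h4.2) hxy.not_gt
      · rw [dif_neg h5.2]
        exact hgC _ _ ⟨hy, h5.1⟩
    · rw [dif_neg h4.2]
      rcases hcl y hy with h5 | h5 | h5
      · rw [dif_pos h5]
        exact h2 x h4.1 _ (hgF _)
      · rwa [dif_neg h5.2]
      · rwa [dif_neg h5.2]
    · rw [dif_neg h4.2]
      rcases hcl y hy with h5 | h5 | h5
      · exact absurd (h3 y h5.2 x h4.1) hxy.not_gt
      · rwa [dif_neg h5.2]
      · rwa [dif_neg h5.2]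

end Vale.Agent.P307.R2.H804
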