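import Vale.Agent.P307.R2.H804.StepH
import Vale.Agent.P307.R2.H806.DChain

/-!
Dominated triples: assembly.
-/

set_option linter.unusedSectionVars false

universe u v w

open FirstOrder Cardinal Set

namespace Vale.Agent.P307.R2.H804

open Vale.Agent.P307 Vale.Agent.P307.H304 Vale.Agent.P307.R2.H287 Vale.Agent.P307.R2.H1
  Vale.Agent.P307.R2.H971 Vale.Agent.P307.R2.H806 Language.Structure Language.Substructure

variable {L : Language.{u, u}} {K : AEC L} {ℓ Λ μ ν ρ τ ν' θ : Cardinal.{u}}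
  {κf α : Cardinal.{u} → Cardinal.{u}}

/-- Free position in the sense of coheirs gives independence. -/
theorem ind_of_coH (hΛ : BasePt K ℓ κf α Λ) (hK : K.IsLS ℓ)
    (hunb : ∀ ν, ν < κf ν ∧ K.CategoricalIn (κf ν)) (hl : Lvl ℓ κf α ν μ ρ Λ)
    (hτ : limB κf μ ≤ τ) (hτν : τ ≤ ν') {C : Type u} [L.Structure C]
    (M : L.Substructure C) (hM : K.le M) (hMc : #M = Λ) {A D B : Set C} (hDB : D ∪ B ⊆ M)
    (h : CoH L τ ν' A (D ∪ B) D) {ι : Type u} (hι : #ι ≤ ν) (r : ι → C) (hr : ∀ i, r i ∈ A) :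
    Ind L κf μ D B r := by
  have hμ := hl.hμ hK
  have hμτ : μ ≤ τ := ((le_opB hunb μ).trans (opB_le_limB κf μ)).trans hτ
  refine ind_of_coh hΛ hK hunb hl M hM hMc (hι.trans hl.νμ) r hDB ?_
  intro ζ y hζ hy
  obtain ⟨r', h1, h2⟩ := h ι ζ ((hι.trans hl.νμ).trans hμτ) (hζ.trans hτ) r y hr hy
  refine ⟨r', h1, fun ξ g hξ => ?_⟩
  refine EqS.mono hμ (hμτ.trans hτν) (EqS.symm (h2.subset ?_))
    (mk_sum_le' hμ hξ (hι.trans hl.νμ))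
  rintro _ ⟨k | i, rfl⟩
  · exact ⟨Sum.inl (g k), rfl⟩
  · exact ⟨Sum.inr i, rfl⟩

variable {t : Tpl K ℓ} {E : EM t (SuccTy Λ ⊕ₗ TailTy τ)} {C : Type u} [L.Structure C]

/-- Finite continuity along the chain. -/
theorem fcont (hK : K.IsLS ℓ) (hunb : ∀ ν, ν < κf ν ∧ K.CategoricalIn (κf ν))
    (hℓ : ℓ ≤ τ) (hτν : τ ≤ ν') (hE : thr κf ν' ≤ #E.N)
    {P : L.Substructure C → L.Substructure C → Prop} {x₀ : Pos K Λ E.N C} {a₀ : SuccTy Λ}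
    {R₀ : Set C} (dc : DomChain E C θ ν' P x₀ a₀ R₀) {κ : Type u} [Finite κ] (v : κ → C)
    {i : SuccTy θ} (hi : IsLim i) :
    ∃ j < i, CoH L τ ν' (range v) (dc.M i) (dc.M j) := by
  classical
  choose supp sm hsm using fun x : E.N => exists_finset_term E.top x
  let W : Set (SuccTy Λ ⊕ₗ TailTy τ) := ⋃ k, (supp (dc.g.symm (v k)) : Set _)
  have hW : W.Finite := finite_iUnion fun k => (supp _).finite_toSet
  have h1 : ∃ j < i, ∀ c ∈ Iio (dc.a i), toLex (Sum.inl c) ∈ W → c ∈ Iio (dc.a j) := by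
    have h2 : ∀ q : SuccTy Λ ⊕ₗ TailTy τ, ∃ j : Iio i, ∀ c ∈ Iio (dc.a i),
        toLex (Sum.inl c) = q → c ∈ Iio (dc.a j) := by
      intro q
      obtain ⟨j₀, hj₀⟩ := hi.1
      by_cases h3 : ∃ c ∈ Iio (dc.a i), toLex (Sum.inl c) = q
      · obtain ⟨c, hc, rfl⟩ := h3
        rw [dc.alim i hi, mem_iUnion] at hc
        obtain ⟨j, hj⟩ := hc
        refine ⟨j, fun c' _ h4 => ?_⟩
        rw [Sum.inl_injective (toLex.injective h4)]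
        exact hj
      · exact ⟨⟨j₀, hj₀⟩, fun c hc h4 => absurd ⟨c, hc, h4⟩ h3⟩
    choose f hf using h2
    obtain ⟨j₀, hj₀⟩ := hi.1
    have h3 : ∃ j : Iio i, ∀ q ∈ W, f q ≤ j := by
      have : Nonempty (Iio i) := ⟨⟨j₀, hj₀⟩⟩
      obtain ⟨j, hj⟩ := (hW.image f).bddAbove
      exact ⟨j, fun q hq => hj ⟨q, hq, rfl⟩⟩
    obtain ⟨j, hj⟩ := h3
    refine ⟨j, j.2, fun c hc hcW => ?_⟩
    exact lt_of_lt_of_le (hf _ c hc rfl) (dc.amono.monotone (hj _ hcW))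
  obtain ⟨j, hj, hj'⟩ := h1
  refine ⟨j, hj, ?_⟩
  have h2 := (coH_em hK hunb hℓ hτν E hE (s := Iio (dc.a i)) (s' := Iio (dc.a j))
    (fun c hc d hd => lt_of_lt_of_le hc (not_lt.1 hd)) (W := W) hj').equiv
      ((hK.1.trans hℓ).trans hτν) hτν dc.g
  rw [← dc.hM, ← dc.hM] at h2
  refine h2.mono ?_ Subset.rfl Subset.rfl
  rintro _ ⟨k, rfl⟩
  refine ⟨dc.g.symm (v k), ?_, dc.g.apply_symm_apply _⟩
  change dc.g.symm (v k) ∈ closure (exLang L t.Λ) _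
  rw [← hsm (dc.g.symm (v k))]
  exact Vale.Agent.P307.R2.H773.realize_mem_cl (sm (dc.g.symm (v k)))
    (fun d : supp (dc.g.symm (v k)) => d.1) fun d => mem_iUnion.2 ⟨k, d.2⟩

/-- **Dominated triples exist.** -/
theorem exists_dom (hΛ : BasePt K ℓ κf α Λ) (hK : K.IsLS ℓ)
    (hunb : ∀ ν, ν < κf ν ∧ K.CategoricalIn (κf ν)) (hl : Lvl ℓ κf α ν μ ρ Λ)
    (hτ : limB κf μ ≤ τ) (hτν : τ ≤ ν') (hτθ : Order.succ τ ≤ θ) (hθΛ : Order.succ θ ≤ Λ)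
    (hthr : thr κf ν' ≤ Order.succ Λ) (hρθ : thr κf ρ ≤ θ)
    (hCm : K.mem C) (hCc : #C = Order.succ Λ) (hs : Sat K Λ C)
    (M' : L.Substructure C) (hM'c : #M' = θ)
    (M₀ : L.Substructure C) (hM₀ : K.le M₀) (hM₀c : #M₀ = Λ) (hMM : M' ≤ M₀)
    {κ : Type u} [Finite κ] (v : κ → C) {A₀ : Set C} (hA₀ : A₀ ⊆ M') (hA₀r : Refl L ρ A₀)
    (hv : Ind L κf μ A₀ M₀ v) :
    ∃ D N : L.Substructure C, K.le D ∧ K.le N ∧ #D = θ ∧ #N = θ ∧ M' ≤ D ∧ D ≤ N ∧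
      (∀ k, v k ∈ N) ∧ Ind L κf μ A₀ D v ∧ ∀ (ζ ι : Type u), #ζ ≤ ν → #ι ≤ ν →
        ∀ (g : ζ → C) (r : ι → C), (∀ i, r i ∈ N) → Ind L κf μ D (range g) v →
          Ind L κf μ D (range g) r := by
  classical
  have hμ := hl.hμ hK
  have hν : ℵ₀ ≤ ν := hK.1.trans hl.hℓ
  have hμτ : μ ≤ τ := ((le_opB hunb μ).trans (opB_le_limB κf μ)).trans hτ
  have hℓτ : ℓ ≤ τ := hl.hℓμ.trans hμτ
  have hτ0 : ℵ₀ ≤ τ := hK.1.trans hℓτ
  have hℓΛ : ℓ ≤ Λ := hΛ.pt.lt.le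
  have hΛ0 : ℵ₀ ≤ Λ := hK.1.trans hℓΛ
  have hθΛ' : θ ≤ Λ := (Order.le_succ θ).trans hθΛ
  have hτΛ : Order.succ τ ≤ Λ := hτθ.trans hθΛ'
  have hℓθ : ℓ ≤ θ := (hℓτ.trans (Order.le_succ τ)).trans hτθ
  have hθ0 : ℵ₀ ≤ θ := hK.1.trans hℓθ
  have hF : #(TailTy τ) ≤ Λ := (mk_tailTy hτ0).trans_le hτΛ
  have hκν : #κ ≤ ν := (lt_aleph0_of_finite κ).le.trans hν
  obtain ⟨t⟩ := exists_tpl' hK hunb
  obtain ⟨E⟩ := exists_em t (SuccTy Λ ⊕ₗ TailTy τ)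
  have hsE : Sat K Λ E.N := sat_em_low hΛ.ab hK hℓΛ (hΛ.largeExt hK hunb _) t hℓΛ hF E
  have hEc := card_em hΛ0 hℓΛ hτ0 hτΛ E
  obtain ⟨i₀, -⟩ := exists_gt_of_small hΛ0 (∅ : Set (SuccTy Λ)) (by simp)
  obtain ⟨x₀, a₀, hx₀, hx₀M, -⟩ := exists_std_init hΛ0 hℓΛ hF hΛ.pt.cat E M₀ hM₀ hM₀c i₀
  let P : L.Substructure C → L.Substructure C → Prop := fun M M'' =>
    A₀ ⊆ M → Ind L κf μ A₀ M v → Ind L κf μ A₀ M'' v
  obtain ⟨dc⟩ := exists_domChain hK hunb hℓτ hτν hτθ hθΛ hthr hsE hCm hCc hs P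
    (fun x a _ _ h => h) (by
    intro x a hx M hM hMc hxM hP
    by_cases h1 : A₀ ⊆ x.S' ∧ Ind L κf μ A₀ x.S' v
    · obtain ⟨y, b, h2, h3, -, h4, h5, h6⟩ := exists_std_step hΛ hK hunb hl hCm hs hCc hℓΛ hF
        hsE hκν v hA₀r x M hM hMc hxM h1.1 (hP h1.1 h1.2) a ∅ (by simp)
      exact ⟨y, b, h2, h3, h5, h4, fun _ _ => h6⟩
    · obtain ⟨y, b, h2, h3, -, h4, h5⟩ := exists_std_ext hK hℓΛ hℓΛ hF hCm
        ((Order.le_succ Λ).trans hCc.ge) hsE hs x ∅ M (by simp) hMc.le a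
      exact ⟨y, b, h2, h3, h5, h4, fun h6 h7 => absurd ⟨h6, h7⟩ h1⟩)
    x₀ a₀ hx₀ ((M' : Set C) ∪ range v) ((mk_union_le _ _).trans (add_le_of_le hθ0 hM'c.le
      (mk_range_le.trans ((lt_aleph0_of_finite κ).le.trans hθ0))))
  -- the least element
  obtain ⟨j₀, -, hj₀⟩ := WellFounded.has_min (wellFounded_lt (α := SuccTy θ)) Set.univ
    (⟨dc.δ, trivial⟩ : (Set.univ : Set (SuccTy θ)).Nonempty)
  have hbot := (dc.bot j₀ fun j hj => hj₀ j trivial hj).1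
  have hM₀M : ∀ i, M₀ ≤ dc.M i := fun i => by
    have h1 := dc.mono (not_lt.1 (hj₀ i trivial))
    rwa [hbot, hx₀M] at h1
  have hA₀M : ∀ i, A₀ ⊆ dc.M i := fun i => hA₀.trans fun c hc => hM₀M i (hMM hc)
  -- the invariant
  have hinv : ∀ i, Ind L κf μ A₀ (dc.M i) v := by
    intro i
    induction i using WellFoundedLT.induction with
    | ind i ih =>
    rcases trichotomy i with h | ⟨j, hj⟩ | h
    · rw [(dc.bot i h).1, hx₀M]
      exact hv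
    · exact dc.succ j i hj (hA₀M j) (ih j hj.1)
    · obtain ⟨j, hj, h1⟩ := fcont hK hunb hℓτ hτν (hthr.trans hEc.ge) dc v h
      have h2 : Ind L κf μ (dc.M j : Set C) (dc.M i : Set C) v := by
        refine ind_of_coH hΛ hK hunb hl hτ hτν (dc.M i) (dc.leM i) (dc.cardM i) (A := range v)
          (union_subset (dc.mono hj.le) Subset.rfl) ?_ hκν v fun k => mem_range_self k
        rw [union_eq_self_of_subset_left (dc.mono hj.le : (dc.M j : Set C) ⊆ dc.M i)]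
        exact h1
      have h3 := (ih j hj).trans hμ (hl.μρ hunb) hl.opB (hκν.trans hl.νμ)
        (refl_big hΛ hK hunb hl (dc.M j) (dc.leM j) (dc.cardM j)) (hA₀M j) h2
      exact h3.mono fun c hc => Or.inr (Or.inr hc)
  have hM'N : (M' : Set C) ⊆ dc.N := fun c hc => dc.hR₀ (Or.inl hc)
  have hM'D : M' ≤ dc.D := by
    intro c hc
    change c ∈ (dc.D : Set C)
    rw [dc.hD]
    exact ⟨hM'N hc, hM₀M dc.δ (hMM hc)⟩
  have hDN : dc.D ≤ dc.N := by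
    intro c hc
    have h1 : c ∈ (dc.D : Set C) := hc
    rw [dc.hD] at h1
    exact h1.1
  have hDM : (dc.D : Set C) ⊆ dc.M dc.δ := by
    rw [dc.hD]
    exact inter_subset_right
  have hDc : #(dc.D) = θ := by
    apply le_antisymm
    · exact (mk_le_mk_of_subset hDN : #(dc.D) ≤ #(dc.N)).trans dc.cardN.le
    · exact hM'c.ge.trans (mk_le_mk_of_subset hM'D : #M' ≤ #(dc.D))
  have hDr : Refl L ρ (dc.D : Set C) :=
    refl_of_le hK hunb (hl.hℓμ.trans (hl.μρ hunb)) dc.leD (hρθ.trans hDc.ge)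
  have hvN : ∀ k, v k ∈ dc.N := fun k => dc.hR₀ (Or.inr ⟨k, rfl⟩)
  refine ⟨dc.D, dc.N, dc.leD, dc.leN, hDc, dc.cardN, hM'D, hDN, hvN,
    (hinv dc.δ).mono fun c hc => Or.inr (hDM hc), ?_⟩
  intro ζ ι hζ hι g r hr hg
  refine descent hΛ hK hunb hl hCm hs hCc (dc.M dc.δ) (dc.leM _) (dc.cardM _) hDM
    (hA₀.trans hM'D) hDr hκν v (hinv dc.δ) (R := (dc.N : Set C)) hvN ?_ ?_ hζ hι g hg r hr
  · intro M'' h1 h2 h3 h4 ι' r' hι' hr'
    refine ind_of_coH hΛ hK hunb hl hτ hτν M'' h1 h2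
      (union_subset (fun c hc => h3 hc) Subset.rfl) ?_ hι' r' hr'
    rw [union_eq_self_of_subset_left (fun c hc => h3 hc : (dc.M dc.δ : Set C) ⊆ M'')]
    exact dc.h1 M'' h1 h2 h3 fun _ _ => h4
  · intro ι' r' hι' hr'
    refine ind_of_coH hΛ hK hunb hl hτ hτν (dc.M dc.δ) (dc.leM _) (dc.cardM _)
      (union_subset hDM Subset.rfl) ?_ hι' r' hr'
    rw [union_eq_self_of_subset_left hDM]
    exact dc.h2

end Vale.Agent.P307.R2.H804
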