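import Vale.Agent.P307.R2.H804.Ind
import Vale.Agent.P307.R2.H971.Mon

/-!
Existence of convergent sequences and of free extensions.
-/

set_option linter.unusedSectionVars false

universe u v w

open FirstOrder Cardinal Set

namespace Vale.Agent.P307.R2.H804

open Vale.Agent.P307 Vale.Agent.P307.H304 Vale.Agent.P307.R2.H287 Vale.Agent.P307.R2.H1
  Vale.Agent.P307.R2.H971 Language.Structure Language.Substructure

variable {L : Language.{u, u}} {K : AEC L} {ℓ : Cardinal.{u}} {κf : Cardinal.{u} → Cardinal.{u}}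

variable (L) in
/-- `r` is realized in `D` over the small tuples of `D ∪ B`. -/
def Coh {N : Type u} [L.Structure N] (ν β : Cardinal.{u}) {ι : Type u} (r : ι → N)
    (D B : Set N) : Prop :=
  ∀ (ζ : Type u) (y : ζ → N), #ζ ≤ β → (∀ z, y z ∈ D ∪ B) →
    ∃ r' : ι → N, (∀ i, r' i ∈ D) ∧ ∀ (ξ : Type u) (g : ξ → ζ), #ξ ≤ ν →
      EqS L ν (Sum.elim (fun k => y (g k)) r') (Sum.elim (fun k => y (g k)) r)

/-- Coheirs have convergent sequences. -/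
theorem exists_conv (hK : K.IsLS ℓ) (hunb : ∀ ν, ν < κf ν ∧ K.CategoricalIn (κf ν))
    {ν : Cardinal.{u}} (hℓ : ℓ ≤ ν) {t : Tpl K ℓ} {I : Type u} [LinearOrder I] (hne : Nonempty I)
    (E : EM t I) (hE : thr κf (opB κf ν) ≤ #E.N) {N : Type u} [L.Structure N] (f : E.N ↪[L] N)
    (hf : K.Emb f) {ι : Type u} (hι : #ι ≤ ν) (r : ι → N) {D B : Set N}
    (hDB : ∀ x ∈ D ∪ B, ∃ y, f y = x) (h : Coh L ν (limB κf ν) r D B) :
    ∃ a : SuccTy (opB κf ν) → ι → E.N, IsUnif E a ∧ (∀ x i, f (a x i) ∈ D) ∧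
      Conv L ν (fun x i => f (a x i)) r (D ∪ B) := by
  have hν : ℵ₀ ≤ ν := hK.1.trans hℓ
  have hE' : thr κf ν ≤ #E.N := ((thr_le_opB κf ν).trans (le_thr hunb _)).trans hE
  obtain ⟨a, h1, h2, h3⟩ := exists_lim hK hunb hℓ hne E hE hι r
    {p : N × E.N | f p.2 = p.1 ∧ p.1 ∈ D ∪ B} {c | ∀ i, f (c i) ∈ D} (by
    intro Y hY hYB
    obtain ⟨r', hr', hr''⟩ := h Y (fun p => p.1.1) hYB fun p => (hY p.2).2
    choose c hc using fun i => hDB (r' i) (Or.inl (hr' i))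
    refine ⟨c, fun i => ?_, fun Y' hY' hY'ν => ?_⟩
    · rw [hc i]
      exact hr' i
    · rw [good_union_iff]
      have h4 := hr'' Y' (fun p => ⟨p.1, hY' p.2⟩) hY'ν
      have hc' : #(Y' ⊕ ι) ≤ ν := by
        rw [mk_sum, lift_id, lift_id]
        exact add_le_of_le hν hY'ν hι
      have h5 := EqS.map_emb hK hunb hℓ f hf hE' hc' (Sum.elim (fun p : Y' => p.1.2) c)
      refine h4.symm.trans (EqS.symm (h5.subset ?_))
      rintro _ ⟨p | i, rfl⟩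
      · exact ⟨Sum.inl p, Prod.ext rfl (hY (hY' p.2)).1⟩
      · exact ⟨Sum.inr i, Prod.ext rfl (hc i)⟩)
  refine ⟨a, h1, h2, fun ζ y hζ hy => ?_⟩
  choose y' hy' using fun z => hDB (y z) (hy z)
  obtain ⟨x₀, hx₀⟩ := h3 (range fun z => (y z, y' z)) (by
    rintro _ ⟨z, rfl⟩
    exact ⟨hy' z, hy z⟩) (mk_range_le.trans hζ)
  refine ⟨x₀, fun x hx => ?_⟩
  have hc' : #(ζ ⊕ ι) ≤ ν := by
    rw [mk_sum, lift_id, lift_id]
    exact add_le_of_le hν hζ hι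
  have h4 : EqS L ν (Sum.elim y r) (Sum.elim y' (a x)) := by
    refine (hx₀ x hx).subset ?_
    rintro _ ⟨z | i, rfl⟩
    · exact Or.inl ⟨z, rfl⟩
    · exact Or.inr ⟨i, rfl⟩
  have h5 := EqS.map_emb hK hunb hℓ f hf hE' hc' (Sum.elim y' (a x))
  refine EqS.symm (h4.trans (h5.subset ?_))
  rintro _ ⟨z | i, rfl⟩
  · exact ⟨Sum.inl z, Prod.ext rfl (hy' z)⟩
  · exact ⟨Sum.inr i, rfl⟩

/-- Reflecting sets. -/
theorem coh_of_refl {N : Type u} [L.Structure N] {ν β : Cardinal.{u}} (hν : ℵ₀ ≤ ν) (hνβ : ν ≤ β)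
    {D : Set N} (hD : Refl L β D) {ι : Type u} (hι : #ι ≤ ν) (r : ι → N) :
    Coh L ν β r D ∅ := by
  intro ζ y hζ hy
  obtain ⟨r', h1, h2⟩ := hD ζ ι hζ (hι.trans hνβ) y (fun z => by simpa using hy z) r
  refine ⟨r', h1, fun ξ g hξ => ?_⟩
  refine EqS.mono hν hνβ (h2.subset ?_) ?_
  · rintro _ ⟨k | i, rfl⟩
    · exact ⟨Sum.inl (g k), rfl⟩
    · exact ⟨Sum.inr i, rfl⟩
  · rw [mk_sum, lift_id, lift_id]
    exact add_le_of_le hν hξ hι

/-- Free extensions in saturated models: a uniform sequence of a submodel `M` of size `Λ` has a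
limit over `M`. -/
theorem exists_limit_sat (hK : K.IsLS ℓ) (hunb : ∀ ν, ν < κf ν ∧ K.CategoricalIn (κf ν))
    {Λ : Cardinal.{u}} (hℓΛ : ℓ ≤ Λ) {C : Type u} [L.Structure C] (hs : Sat K Λ C) {t : Tpl K ℓ}
    {I : Type u} [LinearOrder I] (hne : Nonempty I) (E : EM t I) (hE : #E.N = Λ)
    (f : E.N ↪[L] C) (hf : K.Emb f) {ν₀ : Cardinal.{u}} {X ι : Type u} [LinearOrder X]
    (hX : Dir ν₀ X) (hι : #ι ≤ Λ) {a : X → ι → E.N} (ha : IsUnif E a) :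
    ∃ r : ι → C, ∀ ν, ν ≤ ν₀ → ℓ ≤ ν → thr κf ν ≤ Λ → #ι ≤ ν →
      Conv L ν (fun x i => f (a x i)) r (range f) := by
  obtain ⟨J, _, σ, E', g, c', hσ, hg, -, h1⟩ := ha.exists_limit_ext hK hunb hne hX
  have hΛ : ℵ₀ ≤ Λ := hK.1.trans hℓΛ
  obtain ⟨S, hS, hSA, hSc⟩ := exists_sub_card hK hℓΛ hg.mem_right
    (hE.symm.trans_le (mk_le_of_injective g.injective)) (range g ∪ range c')
    ((mk_union_le _ _).trans (add_le_of_le hΛ (mk_range_le.trans hE.le) (mk_range_le.trans hι)))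
  obtain ⟨k, hk, hk'⟩ := exists_lift g S.subtype hg (AEC.emb_subtype.2 hS)
    fun a => ⟨⟨g a, hSA (Or.inl ⟨a, rfl⟩)⟩, rfl⟩
  obtain ⟨j, hj, hj'⟩ := hs E.N S f k hf hk hE hSc
  have hc' : ∀ i, c' i ∈ S := fun i => hSA (Or.inr ⟨i, rfl⟩)
  refine ⟨fun i => j ⟨c' i, hc' i⟩, fun ν hν hℓ hthr hιν ζ y hζ hy => ?_⟩
  have hν0 : ℵ₀ ≤ ν := hK.1.trans hℓ
  choose y' hy' using hy
  obtain ⟨x₀, hx₀⟩ := h1 ν hν hℓ (hthr.trans hE.ge) hιν ζ y' hζ
  refine ⟨x₀, fun x hx => ?_⟩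
  have hc : #(ζ ⊕ ι) ≤ ν := by
    rw [mk_sum, lift_id, lift_id]
    exact add_le_of_le hν0 hζ hιν
  have h2 := EqS.map_emb hK hunb hℓ f hf (hthr.trans hE.ge) hc (Sum.elim y' (a x))
  have h3 := EqS.map_emb hK hunb hℓ S.subtype (AEC.emb_subtype.2 hS) (hthr.trans hSc.ge) hc
    (Sum.elim (fun z => k (y' z)) fun i => ⟨c' i, hc' i⟩)
  have h4 := EqS.map_emb hK hunb hℓ j hj (hthr.trans hSc.ge) hc
    (Sum.elim (fun z => k (y' z)) fun i => ⟨c' i, hc' i⟩)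
  have h5 : EqS L ν (Sum.elim y (fun i => f (a x i))) (Sum.elim y' (a x)) := by
    refine EqS.symm (h2.subset ?_)
    rintro _ ⟨z | i, rfl⟩
    · exact ⟨Sum.inl z, Prod.ext rfl (hy' z)⟩
    · exact ⟨Sum.inr i, rfl⟩
  have h6 : EqS L ν (Sum.elim (fun z => g (y' z)) c')
      (Sum.elim (fun z => k (y' z)) fun i => ⟨c' i, hc' i⟩) := by
    refine EqS.symm (h3.subset ?_)
    rintro _ ⟨z | i, rfl⟩
    · exact ⟨Sum.inl z, Prod.ext rfl (hk' (y' z))⟩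
    · exact ⟨Sum.inr i, rfl⟩
  have h7 : EqS L ν (Sum.elim (fun z => k (y' z)) fun i => ⟨c' i, hc' i⟩)
      (Sum.elim y fun i => j ⟨c' i, hc' i⟩) := by
    refine h4.subset ?_
    rintro _ ⟨z | i, rfl⟩
    · exact ⟨Sum.inl z, Prod.ext rfl ((hj' (y' z)).trans (hy' z))⟩
    · exact ⟨Sum.inr i, rfl⟩
  exact ((h5.trans (hx₀ x hx).symm).trans h6).trans h7

end Vale.Agent.P307.R2.H804
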