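import Vale.Agent.P307.R2.H804.Descent
import Vale.Agent.P307.R2.H806.Chain

/-!
The successor step: extending a chart while keeping a small tuple free.
-/

set_option linter.unusedSectionVars false

universe u v w

open FirstOrder Cardinal Set

namespace Vale.Agent.P307.R2.H804

open Vale.Agent.P307 Vale.Agent.P307.H304 Vale.Agent.P307.R2.H287 Vale.Agent.P307.R2.H1
  Vale.Agent.P307.R2.H971 Vale.Agent.P307.R2.H806 Language.Structure Language.Substructure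

variable {L : Language.{u, u}} {K : AEC L} {ℓ Λ μ ν ρ : Cardinal.{u}}
  {κf α : Cardinal.{u} → Cardinal.{u}}

/-- Moving a position by an automorphism. -/
theorem Pos.exists_move {N C : Type u} [L.Structure N] [L.Structure C] (x : Pos K Λ N C)
    (σ : C ≃[L] C) : ∃ y : Pos K Λ N C, y.R = {p | ∃ q ∈ x.R, p = (q.1, σ q.2)} ∧ y.S = x.S ∧
      y.S' = x.S'.map σ.toHom := by
  obtain ⟨e, he⟩ := x.exists_equiv
  have h1 : K.Emb (σ.toEmbedding.comp (x.S'.subtype.comp e.toEmbedding)) :=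
    AEC.Emb.comp (AEC.Emb.of_equiv σ (K.mem_of_le _ x.le').2)
      (AEC.Emb.comp (AEC.emb_subtype.2 x.le') (AEC.Emb.of_equiv e (K.mem_of_le _ x.le).1))
  obtain ⟨y, hy⟩ := exists_pos_of_emb x.S.subtype (σ.toEmbedding.comp
    (x.S'.subtype.comp e.toEmbedding)) (AEC.emb_subtype.2 x.le) h1 x.card
  have hR : y.R = {p | ∃ q ∈ x.R, p = (q.1, σ q.2)} := by
    rw [hy]
    ext p
    constructor
    · rintro ⟨a, rfl⟩
      exact ⟨_, he a, rfl⟩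
    · rintro ⟨q, hq, rfl⟩
      have h2 : q.1 ∈ x.S := by
        rw [← SetLike.mem_coe, x.fst]
        exact ⟨q, hq, rfl⟩
      refine ⟨⟨q.1, h2⟩, Prod.ext rfl ?_⟩
      have h3 := (x.pi.eq_iff _ (he ⟨q.1, h2⟩) _ hq).1 rfl
      exact congrArg σ h3
  refine ⟨y, hR, ?_, ?_⟩
  · apply SetLike.coe_injective
    rw [y.fst, x.fst, hR]
    ext a
    constructor
    · rintro ⟨_, ⟨q, hq, rfl⟩, rfl⟩
      exact ⟨q, hq, rfl⟩
    · rintro ⟨q, hq, rfl⟩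
      exact ⟨_, ⟨q, hq, rfl⟩, rfl⟩
  · apply SetLike.coe_injective
    have h2 : ((x.S'.map σ.toHom : L.Substructure C) : Set C) = σ '' (x.S' : Set C) := rfl
    rw [y.snd, h2, x.snd, hR]
    ext a
    constructor
    · rintro ⟨_, ⟨q, hq, rfl⟩, rfl⟩
      exact ⟨_, ⟨q, hq, rfl⟩, rfl⟩
    · rintro ⟨_, ⟨q, hq, rfl⟩, rfl⟩
      exact ⟨_, ⟨q, hq, rfl⟩, rfl⟩

/-- The successor step. -/
theorem exists_std_step (hΛ : BasePt K ℓ κf α Λ) (hK : K.IsLS ℓ)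
    (hunb : ∀ ν, ν < κf ν ∧ K.CategoricalIn (κf ν)) (hl : Lvl ℓ κf α ν μ ρ Λ) {C : Type u}
    [L.Structure C] (hCm : K.mem C) (hs : Sat K Λ C) (hCc : #C = Order.succ Λ)
    {ν₁ : Cardinal.{u}} (hν₁ : ν₁ ≤ Λ) {t : Tpl K ν₁} {F : Type u} [LinearOrder F] (hF : #F ≤ Λ)
    {E : EM t (SuccTy Λ ⊕ₗ F)} (hsE : Sat K Λ E.N) {κ : Type u} (hκ : #κ ≤ ν) (v : κ → C)
    {A₀ : Set C} (hA : Refl L ρ A₀) (x : Pos K Λ E.N C) (M : L.Substructure C) (hM : K.le M)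
    (hMc : #M = Λ) (hxM : x.S' ≤ M) (hAx : A₀ ⊆ x.S') (hv : Ind L κf μ A₀ M v)
    (a₀ : SuccTy Λ) (B : Set E.N) (hB : #B ≤ Λ) :
    ∃ (y : Pos K Λ E.N C) (b : SuccTy Λ), IsStd y b ∧ x ≤ y ∧ B ⊆ y.S ∧ M ≤ y.S' ∧ a₀ < b ∧
      Ind L κf μ A₀ y.S' v := by
  obtain ⟨y₀, b, h1, h2, h3, h4, h5⟩ := exists_std_ext hK hΛ.pt.lt.le hν₁ hF hCm
    ((Order.le_succ Λ).trans hCc.ge) hsE hs x B M hB hMc.le a₀
  have hν : ℵ₀ ≤ ν := hK.1.trans hl.hℓ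
  have h0 : #PEmpty.{u + 1} ≤ ν := by
    rw [mk_pempty]
    exact zero_le
  obtain ⟨σ, h6, -, h7⟩ := exists_free_model hΛ hK hunb hl hCm hs hCc M hM hMc y₀.S' y₀.le'
    y₀.card' h4 (κ := κ) (ζ := PEmpty.{u + 1}) (mk_sum_le' hν h0 hκ) h0 hκ v (fun z => z.elim)
    (fun z => z.elim) (hAx.trans hxM) hA (hv.mono fun c hc => by
      rcases hc with ⟨z, -⟩ | hc
      · exact z.elim
      · exact Or.inr hc)
  obtain ⟨y, h8, h9, h10⟩ := Pos.exists_move y₀ σ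
  refine ⟨y, b, ?_, ?_, ?_, ?_, h5, ?_⟩
  · unfold IsStd
    rw [h9]
    exact h1
  · rw [Pos.le_def, h8]
    intro p hp
    refine ⟨p, h2 hp, Prod.ext rfl ?_⟩
    have h11 : p.2 ∈ x.S' := by
      rw [← SetLike.mem_coe, x.snd]
      exact ⟨p, hp, rfl⟩
    exact (h6 p.2 (hxM h11)).symm
  · rw [h9]
    exact h3
  · rw [h10]
    intro c hc
    exact ⟨c, h4 hc, h6 c hc⟩
  · rw [h10]
    exact h7

end Vale.Agent.P307.R2.H804
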